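import Vale.Agent.P092.H486.EngI

/-!
P092 (helper486), Team P, block [P-ENG], part 6: the families in the letters of helper805
(`UFamE`), the sum rule of the masses, exact incidence at two arbitrary places.
-/

set_option linter.all false

open scoped InnerProductSpace Pointwise ENNReal
open Filter Topology ContinuousLinearMap TopologicalSpace

namespace Vale.Agent.P092.H486.Eng

open Vale.Agent.P092.H859.CL
open Vale.Agent.P092.H553 (ind ind_nonneg ind_le_one abs_ind_le ind_pos ind_neg)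
open Vale.Agent.P092.H43 (Loc2 loc_at)
open Vale.Agent.P092.RC (Pic Moore Cm TRN)
open Vale.Agent.P092.SD (Ms)

/-- The engine's input in the letters of `CL` gives the input in the letters of `CN`. -/
theorem sysF_cn {Γ D K : Type} [Group Γ] [Group D] [NormedAddCommGroup K] [InnerProductSpace ℂ K]
    [CompleteSpace K] {mp : (Γ → ℝ) → (K →L[ℂ] K)} {R : D → (K →L[ℂ] K)} {Bd : Set K}
    {ms : D → Set Γ → ℝ} {A : Subgroup D} {G1 G2 : Γ → ℝ}
    (h : H859.CL.SysF mp R Bd ms A G1 G2) :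
    H859.CN.SysF mp R Bd ms A (BB G1 G2) G1 G2 :=
  ⟨h.fn, ⟨h.sys.prj, h.sys.rep, h.sys.dense, h.sys.norm, h.sys.map, h.sys.sep, h.sys.nrm,
    h.sys.nrv⟩, h.mpb⟩

/-- The family of the limit maps `U z`, `z ∈ Z`, of one source wall `b` and one target type. -/
structure UFamE {E Γ Y Z K : Type} [Group E] [Group Γ] [MulAction E Z] [TopologicalSpace Y]
    [CompactSpace Y] [SMul Γ Y] [NormedAddCommGroup K] [InnerProductSpace ℂ K]
    [CompleteSpace K] (mp : (Γ → ℝ) → (K →L[ℂ] K)) (π : E →* (K →L[ℂ] K))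
    (lam : Γ →* (K →L[ℂ] K)) (W : Set (K →L[ℂ] K)) (b : E) (G1 G2 : Γ → ℝ) (bp : Γ → Y)
    (𝒰 : Ultrafilter ℕ) (NA : ℝ → ℝ → Set Y → Set Γ) (z0 : Z)
    (U : Z → (C(Y, ℂ) →ₗ[ℂ] (K →L[ℂ] K))) (p : ℝ) : Prop where
  ul : ∀ z, SP.UL (U z) p
  cm : ∀ z f, Cm W (U z f)
  cov : ∀ γ z (f f' : C(Y, ℂ)), (∀ y, f' (γ • y) = f y) → lam γ * U z f * lam γ⁻¹ = U z f'
  pcov : ∀ g z f, π g * U z f * π g⁻¹ = U (g • z) f
  dom : ∀ (g : E) (u : C(Y, ℂ)) (A : Set Y), IsOpen A → tsupport u ⊆ A → ∀ ζ : K, ∀ ε > 0,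
    ∃ R : ℝ, ∀ T > 0, ∀ᶠ N : ℕ in (𝒰 : Filter ℕ),
      ‖U (g • z0) u ζ‖ ≤ ‖u‖ * ‖st mp (NA R T A) (π (g * b ^ N * g⁻¹)⁻¹ ζ)‖ + ε
  lim : ∀ (g : E) (f : C(Y, ℂ)) (ξ η : K), Tendsto (fun N : ℕ =>
    ⟪ξ, (π g * PC mp (fun g => π g) (b ^ N)⁻¹ (H859.CL.cfc G1 G2 bp f) * π g⁻¹) η⟫_ℂ)
      (𝒰 : Filter ℕ) (𝓝 ⟪ξ, U (g • z0) f η⟫_ℂ)

section fam

variable {E Γ Y Z K : Type} [Group E] [Group Γ] [MulAction E Z] [TopologicalSpace Y]
  [CompactSpace Y] [MulAction Γ Y] [NormedAddCommGroup K] [InnerProductSpace ℂ K]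
  [CompleteSpace K] {b : E} {π : E →* (K →L[ℂ] K)} {lam : Γ →* (K →L[ℂ] K)}
  {W : Set (K →L[ℂ] K)} {Ω : K}
  {mp : (Γ → ℝ) → (K →L[ℂ] K)} {NA : ℝ → ℝ → Set Y → Set Γ} {z0 : Z} {Br : ℝ → Set Γ}
  {G1 G2 : Γ → ℝ} {bp : Γ → Y} {Bd Bf : Set K} {ms : E → Set Γ → ℝ} {A : Subgroup E}
  {𝒰 : Ultrafilter ℕ}

theorem tendsto_ut {α : Type} {f : E → α} {l : Filter α} :
    Tendsto f (ut b 𝒰 : Filter E) l ↔ Tendsto (fun N : ℕ => f ((b ^ N)⁻¹)) (𝒰 : Filter ℕ) l := by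
  rw [ut, Ultrafilter.coe_map, Filter.tendsto_map'_iff]
  have e : (f ∘ fun N : ℕ => b⁻¹ ^ N) = fun N : ℕ => f ((b ^ N)⁻¹) := by
    funext N
    rw [Function.comp_apply, inv_pow]
  rw [e]

/-- **[P-ENGM]: the engine with masses.** -/
theorem ufam [TopologicalSpace E] (h𝒰 : (𝒰 : Filter ℕ) ≤ atTop) (hp : Pic π lam W Ω)
    (hM : Moore {g : E | g • z0 = z0})
    (h : H859.CN.SysF mp (fun g => π g) Bd ms A Br G1 G2)
    (hL : Leg mp (fun g => π g) (fun γ => lam γ) W) (hG : GeoU G1 G2 bp)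
    (hS : Slow mp (fun g => π g) Bd) (hloc : Loc2 mp (fun g => π g) Bd Bf)
    (he : Esc (st mp) (fun g => π g) Bd A (pw b⁻¹)) (hcut : H859.CN.DomCut NA G1 G2 bp)
    (htr : ∀ z : Z, ∃ g : E, g • z0 = z)
    (hst : ∀ g : E, g • z0 = z0 → ∃ v n, g = v * n ∧ v * b = b * v ∧
      Tendsto (fun N : ℕ => (b ^ N)⁻¹ * n * b ^ N) atTop (𝓝 1)) :
    ∃ (U : Z → (C(Y, ℂ) →ₗ[ℂ] (K →L[ℂ] K))) (p : ℝ), 0 ≤ p ∧ p ≤ 1 ∧
      UFamE mp π lam W b G1 G2 bp 𝒰 NA z0 U p := by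
  obtain ⟨F, hF, hFl⟩ := famU_eng h𝒰 h hL hG hS hloc he hcut htr hst
  obtain ⟨p, hp0, hp1, hpm⟩ := hF.mass hp htr hM
  refine ⟨F, p, hp0, hp1, ⟨fun z => ⟨hpm z, fun f => ?_, fun n v ξ => ?_⟩, hF.cm, hF.cov, hF.pcov,
    fun g u A0 _ hu => hF.dom g u A0 hu, fun g f ξ η => ?_⟩⟩
  · rw [star_eq_adjoint]; exact hF.star z f
  · exact hF.bes z Finset.univ v ξ
  · rw [← hF.pcov g z0 f]
    exact tendsto_ut.1 ((hFl f).conj (π g) (π g⁻¹) η ξ)

/-- the limit at the base place -/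
theorem UFamE.isU {U : Z → (C(Y, ℂ) →ₗ[ℂ] (K →L[ℂ] K))} {p : ℝ}
    (h : UFamE mp π lam W b G1 G2 bp 𝒰 NA z0 U p) :
    IsU mp (fun g => π g) G1 G2 bp (ut b 𝒰 : Filter E) (U z0) := by
  intro f ξ η
  rw [tendsto_ut]
  have h1 := h.lim 1 f η ξ
  rw [one_smul] at h1
  refine h1.congr fun N => ?_
  rw [map_one, one_mul, inv_one, map_one, mul_one]

/-- **The sum rule of the masses.** -/
theorem sum_one [TopologicalSpace E] {Y' Z' : Type} [MulAction E Z'] [TopologicalSpace Y'] [CompactSpace Y']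
    [MulAction Γ Y'] {bp' : Γ → Y'} {NA' : ℝ → ℝ → Set Y' → Set Γ} {z0' : Z'}
    {U : Z → (C(Y, ℂ) →ₗ[ℂ] (K →L[ℂ] K))} {U' : Z' → (C(Y', ℂ) →ₗ[ℂ] (K →L[ℂ] K))} {p p' : ℝ}
    (h𝒰 : (𝒰 : Filter ℕ) ≤ atTop) (hp : Pic π lam W Ω)
    (h : H859.CN.SysF mp (fun g => π g) Bd ms A Br G1 G2)
    (hfin : ∀ r, (FF G1 G2 r).Finite) (he : Esc (st mp) (fun g => π g) Bd A (pw b⁻¹))
    (hU : UFamE mp π lam W b G1 G2 bp 𝒰 NA z0 U p)
    (hU' : UFamE mp π lam W b G2 G1 bp' 𝒰 NA' z0' U' p') : p + p' = 1 := by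
  have hf := h.fn
  have hR := h.sys.rep
  have he' : Esc (st mp) (fun g => π g) Bd A (ut b 𝒰 : Filter E) := he.mono (ut_le b h𝒰)
  have h1 := hU.isU 1 Ω Ω
  have h2 := hU'.isU 1 Ω Ω
  have hΩ : ⟪Ω, Ω⟫_ℂ = 1 := by
    rw [inner_self_eq_norm_sq_to_K, hp.nΩ]; simp
  have e1 : ⟪Ω, U z0 1 Ω⟫_ℂ = p := by
    rw [(hU.ul z0).one]
    change ⟪Ω, (p : ℂ) • Ω⟫_ℂ = p
    rw [inner_smul_right, hΩ, mul_one]
  have e2 : ⟪Ω, U' z0' 1 Ω⟫_ℂ = p' := by
    rw [(hU'.ul z0').one]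
    change ⟪Ω, (p' : ℂ) • Ω⟫_ℂ = p'
    rw [inner_smul_right, hΩ, mul_one]
  rw [e1] at h1
  rw [e2] at h2
  have h3 := h1.add h2
  -- the diagonal is negligible
  have hN : ∀ r, ∃ T, {g : Γ | G1 g = G2 g} ⊆ FF G1 G2 T ∪ BB G1 G2 r := by
    intro r
    refine ⟨r, fun g hg => ?_⟩
    have hg' : G1 g = G2 g := hg
    by_cases h4 : G1 g ≤ r
    · left; exact ⟨h4, hg' ▸ h4⟩
    · right; push Not at h4; exact ⟨h4, hg' ▸ h4⟩
  have h4 := H859.CN.negl h.sys he' hfin hN Ω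
  have h5 : Tendsto (fun w => ⟪(fun g => π g) w Ω, st mp {g : Γ | G1 g = G2 g} ((fun g => π g) w Ω)⟫_ℂ)
      (ut b 𝒰 : Filter E) (𝓝 0) := by
    refine squeeze_zero_norm (fun w => ?_) h4
    refine (norm_inner_le_norm _ _).trans ?_
    have h6 : ‖(fun g => π g) w Ω‖ ≤ 1 := (hR.norm_le w Ω).trans hp.nΩ.le
    exact mul_le_of_le_one_left (norm_nonneg _) h6
  have h6 : Tendsto (fun w => 1 + ⟪(fun g => π g) w Ω, st mp {g : Γ | G1 g = G2 g}
      ((fun g => π g) w Ω)⟫_ℂ) (ut b 𝒰 : Filter E) (𝓝 1) := by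
    have := (tendsto_const_nhds (x := (1 : ℂ))).add h5
    rwa [add_zero] at this
  have h7 : ((p : ℂ) + p') = 1 := by
    refine tendsto_nhds_unique h3 (h6.congr fun w => ?_)
    have c1 : H859.CL.cfc G1 G2 bp (1 : C(Y, ℂ)) = fun g => ((ind (fun g => G2 g ≤ G1 g) g : ℝ) : ℂ) := by
      funext g; simp [H859.CL.cfc]
    have c2 : H859.CL.cfc G2 G1 bp' (1 : C(Y', ℂ)) =
        fun g => ((ind (fun g => G1 g ≤ G2 g) g : ℝ) : ℂ) := by
      funext g; simp [H859.CL.cfc]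
    have c3 : ∀ x : K, st mp {g : Γ | G1 g = G2 g} x + x =
        mp (ind fun g => G2 g ≤ G1 g) x + mp (ind fun g => G1 g ≤ G2 g) x := by
      intro x
      rw [st]
      have b1 := fun (P : Γ → Prop) => abs_ind_le P
      have d1 := hf.add_ap (F := ind fun g => G2 g ≤ G1 g) (G := ind fun g => G1 g ≤ G2 g)
        (b1 _) (b1 _) x
      have d2 := hf.add_ap (F := ind fun g => g ∈ {g : Γ | G1 g = G2 g}) (G := fun _ => (1 : ℝ))
        (D := 1) (b1 _) (fun g => by simp) x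
      rw [hf.one_ap] at d2
      rw [← d1, ← d2]
      congr 2
      funext g
      by_cases k1 : G2 g ≤ G1 g
      · by_cases k2 : G1 g ≤ G2 g
        · rw [ind_pos (P := fun g => G2 g ≤ G1 g) k1, ind_pos (P := fun g => G1 g ≤ G2 g) k2,
            ind_pos (P := fun g => g ∈ {g : Γ | G1 g = G2 g}) (le_antisymm k2 k1)]
        · rw [ind_pos (P := fun g => G2 g ≤ G1 g) k1, ind_neg (P := fun g => G1 g ≤ G2 g) k2,
            ind_neg (P := fun g => g ∈ {g : Γ | G1 g = G2 g}) (fun h0 => k2 (le_of_eq h0))]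
          ring
      · have k2 : G1 g ≤ G2 g := (not_le.1 k1).le
        rw [ind_neg (P := fun g => G2 g ≤ G1 g) k1, ind_pos (P := fun g => G1 g ≤ G2 g) k2,
          ind_neg (P := fun g => g ∈ {g : Γ | G1 g = G2 g}) (fun h0 => k1 (le_of_eq h0.symm))]
    have c4 : ∀ F : Γ → ℝ, ⟪Ω, PC mp (fun g => π g) w (fun g => ((F g : ℝ) : ℂ)) Ω⟫_ℂ =
        ⟪(fun g => π g) w Ω, mp F ((fun g => π g) w Ω)⟫_ℂ := by
      intro F
      rw [PC_real hf]
      change ⟪Ω, π w⁻¹ (mp F (π w Ω))⟫_ℂ = _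
      have := hR.inner_right w⁻¹ Ω (mp F (π w Ω))
      rw [inv_inv] at this
      exact this
    dsimp only at c3 c4 ⊢
    rw [c1, c2, c4, c4, ← inner_add_right, ← c3, inner_add_right]
    have h8 : ⟪π w Ω, π w Ω⟫_ℂ = 1 := by
      have h9 := hR.norm_eq w Ω
      have h10 : ‖π w Ω‖ = 1 := by
        change ‖π w Ω‖ = ‖π 1 Ω‖ at h9
        rw [h9, map_one]; exact hp.nΩ
      rw [inner_self_eq_norm_sq_to_K, h10]; simp
    rw [h8]; ring
  exact_mod_cast h7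

end fam

/-! ### Exact incidence at two places -/

section inc

variable {E Γ Y Y' K : Type} [Group E] [TopologicalSpace E] [Group Γ] [TopologicalSpace Y]
  [CompactSpace Y] [TopologicalSpace Y'] [CompactSpace Y'] [NormedAddCommGroup K]
  [InnerProductSpace ℂ K] [CompleteSpace K] {π : E →* (K →L[ℂ] K)} {lam : Γ →* (K →L[ℂ] K)}
  {W : Set (K →L[ℂ] K)} {Ω : K} {mp : (Γ → ℝ) → (K →L[ℂ] K)} {Bd Bd' : Set K}
  {G1 G2 H1 H2 : Γ → ℝ} {bp : Γ → Y} {bp' : Γ → Y'} {Br Br' : ℝ → Set Γ}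
  {ms ms' : E → Set Γ → ℝ} {A A' : Subgroup E} {r : ℝ}
  {P Pr : C(Y, ℂ) →ₗ[ℂ] (K →L[ℂ] K)} {Q Qr : C(Y', ℂ) →ₗ[ℂ] (K →L[ℂ] K)}

/-- The cut-off maps converge. -/
def CutC (mp : (Γ → ℝ) → (K →L[ℂ] K)) (R : E → (K →L[ℂ] K)) (G1 G2 : Γ → ℝ) (bp : Γ → Y)
    (l : Filter E) (P : C(Y, ℂ) →ₗ[ℂ] (K →L[ℂ] K)) : Prop :=
  ∀ ξ : K, ∀ ε : ℝ, 0 < ε → ∃ r0, ∀ r ≥ r0, ∀ Er : C(Y, ℂ) →ₗ[ℂ] (K →L[ℂ] K),
    IsUr mp R G1 G2 bp r l Er → ∀ f, ‖P f ξ - Er f ξ‖ ≤ ‖f‖ * ε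

/-- translation of a conjugated multiplication operator -/
theorem PC_shift (w g : E) (F : Γ → ℂ) :
    PC mp (fun g => π g) (w * g⁻¹) F = π g * PC mp (fun g => π g) w F * π g⁻¹ := by
  rw [PC, PC, mul_inv_rev, inv_inv, map_mul, map_mul]
  simp only [mul_assoc]

theorem isU_shift {l : Ultrafilter E} (h : IsU mp (fun g => π g) G1 G2 bp (l : Filter E) P)
    (g : E) : IsU mp (fun g => π g) G1 G2 bp ((l.map fun w => w * g⁻¹ : Ultrafilter E) : Filter E)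
      (cl π g P) := by
  intro f ξ η
  rw [Ultrafilter.coe_map, Filter.tendsto_map'_iff]
  refine ((h f).conj (π g) (π g⁻¹) ξ η).congr fun w => ?_
  simp only [Function.comp_apply]
  rw [PC_shift w g]

theorem cutC_shift {l : Ultrafilter E} (hiso : ∀ (g : E) x, ‖π g x‖ = ‖x‖)
    (h : CutC mp (fun g => π g) G1 G2 bp (l : Filter E) P) (g : E) :
    CutC mp (fun g => π g) G1 G2 bp ((l.map fun w => w * g⁻¹ : Ultrafilter E) : Filter E)
      (cl π g P) := by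
  have hinv : π g * π g⁻¹ = 1 := by rw [← map_mul, mul_inv_cancel, map_one]
  have hinv' : π g⁻¹ * π g = 1 := by rw [← map_mul, inv_mul_cancel, map_one]
  intro ξ ε hε
  obtain ⟨r0, hr0⟩ := h (π g⁻¹ ξ) ε hε
  refine ⟨r0, fun r hr Er hEr f => ?_⟩
  have h1 : IsUr mp (fun g => π g) G1 G2 bp r (l : Filter E) (cl π g⁻¹ Er) := by
    intro f' x y
    have h2 := hEr f'
    have h3 : WL (l : Filter E) (fun w => PC mp (fun g => π g) (w * g⁻¹) (cfr G1 G2 bp r f'))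
        (Er f') := by
      intro x y
      have h4 := h2 x y
      rw [Ultrafilter.coe_map, Filter.tendsto_map'_iff] at h4
      exact h4
    refine (h3.conj (π g⁻¹) (π g⁻¹⁻¹) x y).congr fun w => ?_
    dsimp only
    rw [PC_shift w g, inv_inv]
    congr 2
    calc π g⁻¹ * (π g * PC mp (fun g => π g) w (cfr G1 G2 bp r f') * π g⁻¹) * π g
        = (π g⁻¹ * π g) * PC mp (fun g => π g) w (cfr G1 G2 bp r f') * (π g⁻¹ * π g) := by
          simp only [mul_assoc]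
      _ = _ := by rw [hinv', one_mul, mul_one]
  have h2 := hr0 r hr _ h1 f
  have h3 : cl π g P f ξ - Er f ξ = π g (P f (π g⁻¹ ξ) - cl π g⁻¹ Er f (π g⁻¹ ξ)) := by
    rw [map_sub]
    congr 1
    change Er f ξ = π g (π g⁻¹ (Er f (π g⁻¹⁻¹ (π g⁻¹ ξ))))
    rw [inv_inv]
    have e1 : π g (π g⁻¹ ξ) = ξ := congrArg (fun T : K →L[ℂ] K => T ξ) hinv
    have e2 : ∀ x, π g (π g⁻¹ x) = x := fun x => congrArg (fun T : K →L[ℂ] K => T x) hinv
    rw [e1, e2]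
  rw [h3, hiso]
  exact h2

/-- **(I1)**, general filters. -/
theorem inc_gen (hP : Pic π lam W Ω) (hM : Ms lam W Ω (st mp))
    (h : H859.CN.SysF mp (fun g => π g) Bd ms A Br G1 G2)
    (h' : H859.CN.SysF mp (fun g => π g) Bd' ms' A' Br' H1 H2)
    (hL : Leg mp (fun g => π g) (fun γ => lam γ) W) (hSl : Slow mp (fun g => π g) Bd)
    (hSl' : Slow mp (fun g => π g) Bd') {l l' : Ultrafilter E}
    (hfG : ∀ r, (FF G1 G2 r).Finite) (hfH : ∀ r, (FF H1 H2 r).Finite)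
    (hPl : IsU mp (fun g => π g) G1 G2 bp (l : Filter E) P)
    (hQl : IsU mp (fun g => π g) H1 H2 bp' (l' : Filter E) Q)
    (hPc : CutC mp (fun g => π g) G1 G2 bp (l : Filter E) P)
    (hQc : CutC mp (fun g => π g) H1 H2 bp' (l' : Filter E) Q) {S : Set E} (hS : Moore S)
    (hc : ∀ n ∈ S, Tendsto (fun w => w * n * w⁻¹) (l : Filter E) (𝓝 1))
    (hc' : ∀ n ∈ S, Tendsto (fun w => w * n * w⁻¹) (l' : Filter E) (𝓝 1))
    (u : C(Y, ℂ)) (v : C(Y', ℂ)) (ov : Ovl G1 G2 bp H1 H2 bp' (tsupport u) (tsupport v)) :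
    P u * Q v = 0 ∧ Q v * P u = 0 := by
  have hf := h.fn
  have hR := h.sys.rep
  -- squares
  have key : ∀ (u : C(Y, ℂ)) (v : C(Y', ℂ)), Ovl G1 G2 bp H1 H2 bp' (tsupport u) (tsupport v) →
      Q (star v * v) * P (star u * u) = 0 := by
    intro u v ov
    choose Pn hPn using fun n : ℕ => exists_isUr (G1 := G1) (G2 := G2) (bp := bp) (Y := Y) hf hR l
      (n : ℝ)
    choose Qn hQn using fun n : ℕ => exists_isUr (G1 := H1) (G2 := H2) (bp := bp') (Y := Y') hf hR l'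
      (n : ℝ)
    have hz : ∀ n, Qn n (star v * v) * Pn n (star u * u) = 0 := by
      intro n
      obtain ⟨N, hN⟩ := ov.cut hfG hfH (n : ℝ) (u := u) (v := v)
        (fun y hy => subset_tsupport _ hy) (fun y hy => subset_tsupport _ hy)
      exact inc_cut hP hM hf hR hL (hPn n) (hQn n) hS
        (fun g hg f => ((hPn n).contr h hSl (hc g hg) f).symm)
        (fun g hg f => ((hQn n).contr h' hSl' (hc' g hg) f).symm) u v hN
    have tP : ∀ f ξ, Tendsto (fun n => Pn n f ξ) atTop (𝓝 (P f ξ)) := by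
      intro f ξ
      rw [Metric.tendsto_nhds]
      intro ε hε
      obtain ⟨r0, hr0⟩ := hPc ξ (ε / (‖f‖ + 1)) (by positivity)
      filter_upwards [eventually_ge_atTop ⌈r0⌉₊] with n hn
      have h1 := hr0 n ((Nat.le_ceil r0).trans (by exact_mod_cast hn)) (Pn n) (hPn n) f
      rw [dist_comm, dist_eq_norm]
      refine h1.trans_lt ?_
      rw [mul_div_assoc', div_lt_iff₀ (by positivity)]
      have := norm_nonneg f
      nlinarith
    have tQ : ∀ f ξ, Tendsto (fun n => Qn n f ξ) atTop (𝓝 (Q f ξ)) := by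
      intro f ξ
      rw [Metric.tendsto_nhds]
      intro ε hε
      obtain ⟨r0, hr0⟩ := hQc ξ (ε / (‖f‖ + 1)) (by positivity)
      filter_upwards [eventually_ge_atTop ⌈r0⌉₊] with n hn
      have h1 := hr0 n ((Nat.le_ceil r0).trans (by exact_mod_cast hn)) (Qn n) (hQn n) f
      rw [dist_comm, dist_eq_norm]
      refine h1.trans_lt ?_
      rw [mul_div_assoc', div_lt_iff₀ (by positivity)]
      have := norm_nonneg f
      nlinarith
    have nQ : ∀ n f, ‖Qn n f‖ ≤ ‖f‖ := fun n f => (hQn n f).norm_le (norm_nonneg _)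
      (Eventually.of_forall fun w => PC_opNorm hf hR (norm_nonneg _) (fun g => crd _ f g) w)
    ext ξ
    have h1 := tendsto_mul_ap (l := (atTop : Filter ℕ)) (fun n => nQ n (star v * v))
      (tQ (star v * v)) (tP (star u * u)) ξ
    refine tendsto_nhds_unique h1 ?_
    simp only [hz]
    exact tendsto_const_nhds
  have hPs := fun f => hPl.star hf hR f
  have hQs := fun f => hQl.star hf hR f
  have hPb := fun f ξ => hPl.sq_le hf hR f ξ
  have hQb := fun f ξ => hQl.sq_le hf hR f ξ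
  have ts : ∀ f : C(Y, ℂ), tsupport (star f : C(Y, ℂ)) ⊆ tsupport f := by
    intro f
    refine closure_mono fun y hy h0 => hy ?_
    change (starRingEnd ℂ) (f y) = 0
    rw [h0, map_zero]
  have ts' : ∀ f : C(Y', ℂ), tsupport (star f : C(Y', ℂ)) ⊆ tsupport f := by
    intro f
    refine closure_mono fun y hy h0 => hy ?_
    change (starRingEnd ℂ) (f y) = 0
    rw [h0, map_zero]
  have hQP : ∀ (u : C(Y, ℂ)) (v : C(Y', ℂ)), Ovl G1 G2 bp H1 H2 bp' (tsupport u) (tsupport v) →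
      Q v * P u = 0 := by
    intro u v ov
    have h1 := zero_of_sq hPs hQs hPb hQb (u := star u) (v := v)
      (key (star u) v (ov.mono (ts u) subset_rfl))
    rwa [star_star] at h1
  refine ⟨?_, hQP u v ov⟩
  have h1 := congrArg adjoint (hQP (star u) (star v) (ov.mono (ts u) (ts' v)))
  rw [map_zero] at h1
  rw [← h1]
  have h5 : adjoint (Q (star v) * P (star u)) = adjoint (P (star u)) * adjoint (Q (star v)) := by
    rw [← star_eq_adjoint, ← star_eq_adjoint, ← star_eq_adjoint, star_mul]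
  rw [h5, ← hPs, ← hQs, star_star, star_star]

/-- **(I1) at two arbitrary places** `g • z0`, `g' • z0'` of two families (any two walls `b`, `b'`
of the source, any two types of the target): `S` is a Moore set contracted by both conjugated
walls. -/
theorem ufam_inc {Z Z' : Type} [MulAction E Z] [MulAction E Z'] [MulAction Γ Y] [MulAction Γ Y']
    {b b' : E} {z0 : Z} {z0' : Z'} {NA : ℝ → ℝ → Set Y → Set Γ} {NA' : ℝ → ℝ → Set Y' → Set Γ}
    {𝒰 𝒰' : Ultrafilter ℕ} {U : Z → (C(Y, ℂ) →ₗ[ℂ] (K →L[ℂ] K))}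
    {U' : Z' → (C(Y', ℂ) →ₗ[ℂ] (K →L[ℂ] K))} {p p' : ℝ}
    (h𝒰 : (𝒰 : Filter ℕ) ≤ atTop) (h𝒰' : (𝒰' : Filter ℕ) ≤ atTop)
    (hP : Pic π lam W Ω) (hM : Ms lam W Ω (st mp))
    (h : H859.CN.SysF mp (fun g => π g) Bd ms A Br G1 G2)
    (h' : H859.CN.SysF mp (fun g => π g) Bd' ms' A' Br' H1 H2)
    (hL : Leg mp (fun g => π g) (fun γ => lam γ) W) (hSl : Slow mp (fun g => π g) Bd)
    (hSl' : Slow mp (fun g => π g) Bd')
    (he : Esc (st mp) (fun g => π g) Bd A (pw b⁻¹))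
    (he' : Esc (st mp) (fun g => π g) Bd' A' (pw b'⁻¹))
    (hfG : ∀ r, (FF G1 G2 r).Finite) (hfH : ∀ r, (FF H1 H2 r).Finite)
    (hU : UFamE mp π lam W b G1 G2 bp 𝒰 NA z0 U p)
    (hU' : UFamE mp π lam W b' H1 H2 bp' 𝒰' NA' z0' U' p') (g g' : E) {S : Set E} (hS : Moore S)
    (hc : ∀ n ∈ S, Tendsto (fun N : ℕ => (b ^ N)⁻¹ * (g⁻¹ * n * g) * b ^ N) atTop (𝓝 1))
    (hc' : ∀ n ∈ S, Tendsto (fun N : ℕ => (b' ^ N)⁻¹ * (g'⁻¹ * n * g') * b' ^ N) atTop (𝓝 1))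
    (u : C(Y, ℂ)) (v : C(Y', ℂ)) (ov : Ovl G1 G2 bp H1 H2 bp' (tsupport u) (tsupport v)) :
    U (g • z0) u * U' (g' • z0') v = 0 ∧ U' (g' • z0') v * U (g • z0) u = 0 := by
  have hiso : ∀ (g : E) x, ‖π g x‖ = ‖x‖ := by
    intro v x
    have h1 := h.sys.rep.norm_eq v x
    change ‖π v x‖ = ‖π 1 x‖ at h1
    rw [h1, map_one]
    rfl
  have c1 : CutC mp (fun g => π g) G1 G2 bp (ut b 𝒰 : Filter E) (U z0) := fun ξ ε hε =>
    cut_close h (he.mono (ut_le b h𝒰)) hU.isU ξ hε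
  have c2 : CutC mp (fun g => π g) H1 H2 bp' (ut b' 𝒰' : Filter E) (U' z0') := fun ξ ε hε =>
    cut_close h' (he'.mono (ut_le b' h𝒰')) hU'.isU ξ hε
  have ct : ∀ {b g : E} {𝒰 : Ultrafilter ℕ} (h𝒰 : (𝒰 : Filter ℕ) ≤ atTop) {n : E}
      (hc : Tendsto (fun N : ℕ => (b ^ N)⁻¹ * (g⁻¹ * n * g) * b ^ N) atTop (𝓝 1)),
      Tendsto (fun w => w * n * w⁻¹)
        (((ut b 𝒰).map fun w => w * g⁻¹ : Ultrafilter E) : Filter E) (𝓝 1) := by
    intro b g 𝒰 h𝒰 n hc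
    rw [Ultrafilter.coe_map, Filter.tendsto_map'_iff, tendsto_ut]
    refine (hc.mono_left h𝒰).congr fun N => ?_
    simp only [Function.comp_apply]
    group
  have e1 : U (g • z0) u = cl π g (U z0) u := by rw [cl_apply, hU.pcov]
  have e2 : U' (g' • z0') v = cl π g' (U' z0') v := by rw [cl_apply, hU'.pcov]
  rw [e1, e2]
  exact inc_gen hP hM h h' hL hSl hSl' hfG hfH (isU_shift hU.isU g) (isU_shift hU'.isU g')
    (cutC_shift hiso c1 g) (cutC_shift hiso c2 g') hS (fun n hn => ct h𝒰 (hc n hn))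
    (fun n hn => ct h𝒰' (hc' n hn)) u v ov

end inc

end Vale.Agent.P092.H486.Eng
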