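import Vale.Agent.P092.H486.RelD

/-!
P092 (helper486), Team P, Track C (`k = ℂ`), part 5: **(O2)**, relations between the limit maps at
one place (one wall, or two walls with the same source place).
-/

set_option linter.all false

open scoped InnerProductSpace Pointwise ENNReal
open Filter Topology ContinuousLinearMap TopologicalSpace MeasureTheory

namespace Vale.Agent.P092.H486.Rel

open Vale.Agent.P092.H859.CL
open Vale.Agent.P092.RC (Pic Moore Cm TRN)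
open Vale.Agent.P092.SD (Ms UC)
open Vale.Agent.P092.H494.PI (unitary_norm)
open Vale.Agent.P092.H486.Eng (cfr crd IsU IsUr ut ut_le tendsto_ut WL exists_isUr cut_close CutC
  UFamE)
open Vale.Agent.P092.H790.CTA (ORBG SIZEG)

section lim

variable {G Γ K V : Type} [Group G] [TopologicalSpace G] [IsTopologicalGroup G] [Group Γ]
  [NormedAddCommGroup K] [InnerProductSpace ℂ K] [CompleteSpace K] {π : G →* (K →L[ℂ] K)}
  {lam : Γ →* (K →L[ℂ] K)} {W : Set (K →L[ℂ] K)} {Ω : K} {mp : (Γ → ℝ) → (K →L[ℂ] K)}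
  [NormedAddCommGroup V] [ProperSpace V] [MeasurableSpace V] [BorelSpace V] {μ : Measure V}
  [IsFiniteMeasureOnCompacts μ] [μ.IsOpenPosMeasure] {b b' : G} {n : V → G} {ρ : ℝ}
  {Y Y' : Type} [TopologicalSpace Y] [CompactSpace Y] [TopologicalSpace Y'] [CompactSpace Y']
  {G1 G2 H1 H2 : Γ → ℝ} {bp : Γ → Y} {bp' : Γ → Y'} {sz : Γ → ℝ}
  {𝒰 𝒰' : Ultrafilter ℕ}

/-- **Relations between the limit maps**, at the base place. -/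
theorem rel_lim (hp : Pic π lam W Ω) (hM : Ms lam W Ω (st mp))
    (hleg : Leg mp (fun g => π g) (fun γ => lam γ) W)
    (hf : Fn mp) (hR : Rep fun g => π g) (hUC : UC π W Ω (st mp)) (hρ : 0 < ρ) (hρ1 : ρ < 1)
    (hnc : Tendsto n (𝓝 0) (𝓝 1)) (hORB : ORBG μ b n ρ π lam W Ω)
    (hctr : ∀ N : ℕ, ∀ O ∈ 𝓝 (1 : G), ∀ᶠ s : ℕ in atTop, ∀ x ∈ Metric.closedBall (0 : V) 1,
      (b' ^ s)⁻¹ * (b ^ N * n x * (b ^ N)⁻¹) * b' ^ s ∈ O)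
    (hsz0 : ∀ γ, 0 < sz γ) (hsz : ∀ γ, ∃ d : ℝ, 1 ≤ d ∧ ∀ y, sz (γ * y) ≤ d * sz y)
    (hS : SIZEG b π Ω (st mp) sz) (h𝒰 : (𝒰 : Filter ℕ) ≤ atTop) (h𝒰' : (𝒰' : Filter ℕ) ≤ atTop)
    {P : C(Y, ℂ) →ₗ[ℂ] (K →L[ℂ] K)} {Q : C(Y', ℂ) →ₗ[ℂ] (K →L[ℂ] K)}
    (hPc : CutC mp (fun g => π g) G1 G2 bp (ut b 𝒰 : Filter G) P)
    (hQc : CutC mp (fun g => π g) H1 H2 bp' (ut b' 𝒰' : Filter G) Q)
    {I : Type} [Fintype I] {u : I → C(Y, ℂ)} {v : I → C(Y', ℂ)}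
    (hC : WCnt2 G1 G2 bp H1 H2 bp' sz u v) : ∑ i, P (u i) * Q (v i) = 0 := by
  choose Pn hPn using fun n : ℕ => exists_isUr (G1 := G1) (G2 := G2) (bp := bp) (Y := Y) hf hR
    (ut b 𝒰) (n : ℝ)
  choose Qn hQn using fun n : ℕ => exists_isUr (G1 := H1) (G2 := H2) (bp := bp') (Y := Y') hf hR
    (ut b' 𝒰') (n : ℝ)
  have hz : ∀ n, ∑ i, Pn n (u i) * Qn n (v i) = 0 := by
    intro n
    obtain ⟨C, d, h⟩ := hC n
    exact rel_cut hp hM hleg hf hR hUC hρ hρ1 hnc hORB hctr hsz0 hsz hS h𝒰 h𝒰' (hPn n) (hQn n)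
      u v h
  have tP : ∀ f ξ, Tendsto (fun n => Pn n f ξ) atTop (𝓝 (P f ξ)) := by
    intro f ξ
    rw [Metric.tendsto_nhds]
    intro ε hε
    obtain ⟨r0, hr0⟩ := hPc ξ (ε / (‖f‖ + 1)) (by positivity)
    filter_upwards [eventually_ge_atTop ⌈r0⌉₊] with n hn
    have h1 := hr0 n ((Nat.le_ceil r0).trans (by exact_mod_cast hn)) (Pn n) (hPn n) f
    rw [dist_comm, dist_eq_norm]
    refine h1.trans_lt ?_
    rw [mul_div_assoc', div_lt_iff₀ (by positivity)]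
    have := norm_nonneg f
    nlinarith
  have tQ : ∀ f ξ, Tendsto (fun n => Qn n f ξ) atTop (𝓝 (Q f ξ)) := by
    intro f ξ
    rw [Metric.tendsto_nhds]
    intro ε hε
    obtain ⟨r0, hr0⟩ := hQc ξ (ε / (‖f‖ + 1)) (by positivity)
    filter_upwards [eventually_ge_atTop ⌈r0⌉₊] with n hn
    have h1 := hr0 n ((Nat.le_ceil r0).trans (by exact_mod_cast hn)) (Qn n) (hQn n) f
    rw [dist_comm, dist_eq_norm]
    refine h1.trans_lt ?_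
    rw [mul_div_assoc', div_lt_iff₀ (by positivity)]
    have := norm_nonneg f
    nlinarith
  have nP : ∀ n f, ‖Pn n f‖ ≤ ‖f‖ := fun n f => (hPn n f).norm_le (norm_nonneg _)
    (Eventually.of_forall fun w => PC_opNorm hf hR (norm_nonneg _) (fun g => crd _ f g) w)
  ext ξ
  have h1 : Tendsto (fun n => ∑ i, (Pn n (u i) * Qn n (v i)) ξ) atTop
      (𝓝 (∑ i, (P (u i) * Q (v i)) ξ)) :=
    tendsto_finset_sum _ fun i _ => tendsto_mul_ap (l := (atTop : Filter ℕ))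
      (fun n => nP n (u i)) (tP (u i)) (tQ (v i)) ξ
  rw [ContinuousLinearMap.sum_apply]
  refine tendsto_nhds_unique h1 ?_
  have h2 : ∀ n, ∑ i, (Pn n (u i) * Qn n (v i)) ξ = 0 := fun n => by
    rw [← ContinuousLinearMap.sum_apply, hz n]
    rfl
  simp only [h2]
  exact tendsto_const_nhds

/-- **(O2), two families with the same source place** `g • z0`, `g • z0'`. -/
theorem rel_two {Z Z' : Type} [MulAction G Z] [MulAction G Z'] [MulAction Γ Y] [MulAction Γ Y']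
    {z0 : Z} {z0' : Z'} {NA : ℝ → ℝ → Set Y → Set Γ} {NA' : ℝ → ℝ → Set Y' → Set Γ}
    {U : Z → (C(Y, ℂ) →ₗ[ℂ] (K →L[ℂ] K))} {U' : Z' → (C(Y', ℂ) →ₗ[ℂ] (K →L[ℂ] K))} {p p' : ℝ}
    {Bd Bd' : Set K} {ms ms' : G → Set Γ → ℝ} {A A' : Subgroup G} {Br Br' : ℝ → Set Γ}
    (hp : Pic π lam W Ω) (hM : Ms lam W Ω (st mp)) (hUC : UC π W Ω (st mp))
    (h : H859.CN.SysF mp (fun g => π g) Bd ms A Br G1 G2)
    (h' : H859.CN.SysF mp (fun g => π g) Bd' ms' A' Br' H1 H2)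
    (hleg : Leg mp (fun g => π g) (fun γ => lam γ) W)
    (he : Esc (st mp) (fun g => π g) Bd A (pw b⁻¹))
    (he' : Esc (st mp) (fun g => π g) Bd' A' (pw b'⁻¹))
    (h𝒰 : (𝒰 : Filter ℕ) ≤ atTop) (h𝒰' : (𝒰' : Filter ℕ) ≤ atTop)
    (hU : UFamE mp π lam W b G1 G2 bp 𝒰 NA z0 U p)
    (hU' : UFamE mp π lam W b' H1 H2 bp' 𝒰' NA' z0' U' p')
    (hρ : 0 < ρ) (hρ1 : ρ < 1)
    (hnc : Tendsto n (𝓝 0) (𝓝 1)) (hORB : ORBG μ b n ρ π lam W Ω)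
    (hctr : ∀ N : ℕ, ∀ O ∈ 𝓝 (1 : G), ∀ᶠ s : ℕ in atTop, ∀ x ∈ Metric.closedBall (0 : V) 1,
      (b' ^ s)⁻¹ * (b ^ N * n x * (b ^ N)⁻¹) * b' ^ s ∈ O)
    (hsz0 : ∀ γ, 0 < sz γ) (hsz : ∀ γ, ∃ d : ℝ, 1 ≤ d ∧ ∀ y, sz (γ * y) ≤ d * sz y)
    (hS : SIZEG b π Ω (st mp) sz)
    {I : Type} [Fintype I] {u : I → C(Y, ℂ)} {v : I → C(Y', ℂ)}
    (hC : WCnt2 G1 G2 bp H1 H2 bp' sz u v) (g : G) :
    ∑ i, U (g • z0) (u i) * U' (g • z0') (v i) = 0 := by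
  have h0 := rel_lim (P := U z0) (Q := U' z0') hp hM hleg h.fn h.sys.rep hUC hρ hρ1 hnc hORB hctr
    hsz0 hsz hS h𝒰 h𝒰'
    (fun ξ ε hε => cut_close h (he.mono (ut_le b h𝒰)) hU.isU ξ hε)
    (fun ξ ε hε => cut_close h' (he'.mono (ut_le b' h𝒰')) hU'.isU ξ hε) hC
  have e1 : π g⁻¹ * π g = 1 := by rw [← map_mul, inv_mul_cancel, map_one]
  have e : ∑ i, U (g • z0) (u i) * U' (g • z0') (v i) =
      π g * (∑ i, U z0 (u i) * U' z0' (v i)) * π g⁻¹ := by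
    rw [Finset.mul_sum, Finset.sum_mul]
    refine Finset.sum_congr rfl fun i _ => ?_
    rw [← hU.pcov, ← hU'.pcov]
    calc π g * U z0 (u i) * π g⁻¹ * (π g * U' z0' (v i) * π g⁻¹)
        = π g * U z0 (u i) * (π g⁻¹ * π g) * (U' z0' (v i) * π g⁻¹) := by simp only [mul_assoc]
      _ = _ := by rw [e1, mul_one]; simp only [mul_assoc]
  rw [e, h0, mul_zero, zero_mul]

/-- the contraction, one wall -/
theorem ctr_same {b : G} {n : V → G}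
    (hn : ∀ O ∈ 𝓝 (1 : G), ∀ᶠ s : ℕ in atTop, ∀ x ∈ Metric.closedBall (0 : V) 1,
      (b ^ s)⁻¹ * n x * b ^ s ∈ O) (N : ℕ) (O : Set G) (hO : O ∈ 𝓝 (1 : G)) :
    ∀ᶠ s : ℕ in atTop, ∀ x ∈ Metric.closedBall (0 : V) 1,
      (b ^ s)⁻¹ * (b ^ N * n x * (b ^ N)⁻¹) * b ^ s ∈ O := by
  obtain ⟨s0, hs0⟩ := eventually_atTop.1 (hn O hO)
  filter_upwards [eventually_ge_atTop (s0 + N)] with s hs x hx
  have h1 := hs0 (s - N) (by omega) x hx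
  have e1 : b ^ s = b ^ N * b ^ (s - N) := by rw [← pow_add]; congr 1; omega
  have e2 : (b ^ s)⁻¹ * (b ^ N * n x * (b ^ N)⁻¹) * b ^ s = (b ^ (s - N))⁻¹ * n x * b ^ (s - N) := by
    rw [e1]
    group
  rw [e2]
  exact h1

/-- **(O2), one family.** -/
theorem rel_same {Z : Type} [MulAction G Z] [MulAction Γ Y]
    {z0 : Z} {NA : ℝ → ℝ → Set Y → Set Γ}
    {U : Z → (C(Y, ℂ) →ₗ[ℂ] (K →L[ℂ] K))} {p : ℝ}
    {Bd : Set K} {ms : G → Set Γ → ℝ} {A : Subgroup G} {Br : ℝ → Set Γ}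
    (hp : Pic π lam W Ω) (hM : Ms lam W Ω (st mp)) (hUC : UC π W Ω (st mp))
    (h : H859.CN.SysF mp (fun g => π g) Bd ms A Br G1 G2)
    (hleg : Leg mp (fun g => π g) (fun γ => lam γ) W)
    (he : Esc (st mp) (fun g => π g) Bd A (pw b⁻¹))
    (h𝒰 : (𝒰 : Filter ℕ) ≤ atTop)
    (hU : UFamE mp π lam W b G1 G2 bp 𝒰 NA z0 U p) (htr : ∀ z : Z, ∃ g : G, g • z0 = z)
    (hρ : 0 < ρ) (hρ1 : ρ < 1)
    (hnc : Tendsto n (𝓝 0) (𝓝 1)) (hORB : ORBG μ b n ρ π lam W Ω)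
    (hn : ∀ O ∈ 𝓝 (1 : G), ∀ᶠ s : ℕ in atTop, ∀ x ∈ Metric.closedBall (0 : V) 1,
      (b ^ s)⁻¹ * n x * b ^ s ∈ O)
    (hsz0 : ∀ γ, 0 < sz γ) (hsz : ∀ γ, ∃ d : ℝ, 1 ≤ d ∧ ∀ y, sz (γ * y) ≤ d * sz y)
    (hS : SIZEG b π Ω (st mp) sz)
    {I : Type} [Fintype I] {u v : I → C(Y, ℂ)}
    (hC : WCnt G1 G2 bp sz u v) (z : Z) :
    ∑ i, U z (u i) * U z (v i) = 0 := by
  obtain ⟨g, rfl⟩ := htr z
  exact rel_two hp hM hUC h h hleg he he h𝒰 h𝒰 hU hU hρ hρ1 hnc hORB (ctr_same hn) hsz0 hsz hS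
    hC.two g

end lim

end Vale.Agent.P092.H486.Rel
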