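import Mathlib

/-!
P092 (helper486), Team P, block [P-ENG], part 1: weak limits of operators.
-/

set_option linter.all false

open scoped InnerProductSpace
open Filter Topology ContinuousLinearMap

namespace Vale.Agent.P092.H486.Eng

variable {ι K : Type} [NormedAddCommGroup K] [InnerProductSpace ℂ K] [CompleteSpace K]
  {l : Filter ι} {f g : ι → (K →L[ℂ] K)} {S T : K →L[ℂ] K} {C : ℝ}

/-- Weak limits of vectors along ultrafilters. -/
theorem exists_wlim (U : Ultrafilter ι) (x : ι → K) {C : ℝ} (hx : ∀ i, ‖x i‖ ≤ C) :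
    ∃ ζ : K, ∀ η, Tendsto (fun i => ⟪x i, η⟫_ℂ) U (𝓝 ⟪ζ, η⟫_ℂ) := by
  have h1 : ∀ η : K, ∃ c : ℂ, ‖c‖ ≤ C * ‖η‖ ∧ Tendsto (fun i => ⟪x i, η⟫_ℂ) U (𝓝 c) := by
    intro η
    have hK : IsCompact (Metric.closedBall (0 : ℂ) (C * ‖η‖)) := isCompact_closedBall _ _
    have hm : ((U.map fun i => ⟪x i, η⟫_ℂ : Ultrafilter ℂ) : Filter ℂ) ≤
        𝓟 (Metric.closedBall (0 : ℂ) (C * ‖η‖)) :=
      Filter.tendsto_principal.2 (Filter.Eventually.of_forall fun i =>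
        mem_closedBall_zero_iff.2 ((norm_inner_le_norm _ _).trans
          (mul_le_mul_of_nonneg_right (hx i) (norm_nonneg _))))
    obtain ⟨c, hc, hcl⟩ := hK.ultrafilter_le_nhds _ hm
    exact ⟨c, mem_closedBall_zero_iff.1 hc, hcl⟩
  choose L hL hLt using h1
  have hadd : ∀ a b, L (a + b) = L a + L b := fun a b => by
    refine tendsto_nhds_unique (hLt (a + b)) ?_
    have := (hLt a).add (hLt b)
    simpa only [inner_add_right] using this
  have hsmul : ∀ (c : ℂ) a, L (c • a) = c * L a := fun c a => by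
    refine tendsto_nhds_unique (hLt (c • a)) ?_
    have := (hLt a).const_mul c
    simpa only [inner_smul_right] using this
  let Λ : K →ₗ[ℂ] ℂ := { toFun := L, map_add' := hadd, map_smul' := hsmul }
  let Λc : StrongDual ℂ K := Λ.mkContinuous C hL
  refine ⟨(InnerProductSpace.toDual ℂ K).symm Λc, fun η => ?_⟩
  rw [InnerProductSpace.toDual_symm_apply]
  exact hLt η

/-- weak limits of operators -/
def WL (l : Filter ι) (f : ι → (K →L[ℂ] K)) (T : K →L[ℂ] K) : Prop :=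
  ∀ ξ η, Tendsto (fun i => ⟪η, f i ξ⟫_ℂ) l (𝓝 ⟪η, T ξ⟫_ℂ)

theorem WL.uniq [l.NeBot] (h : WL l f S) (h' : WL l f T) : S = T := by
  ext ξ
  exact ext_inner_left ℂ fun η => tendsto_nhds_unique (h ξ η) (h' ξ η)

theorem WL.norm_le [l.NeBot] (h : WL l f T) (hC : 0 ≤ C) (hf : ∀ᶠ i in l, ‖f i‖ ≤ C) : ‖T‖ ≤ C := by
  refine ContinuousLinearMap.opNorm_le_bound _ hC fun ξ => ?_
  have h1 := (h ξ (T ξ)).norm
  have h2 : ‖⟪T ξ, T ξ⟫_ℂ‖ = ‖T ξ‖ ^ 2 := by
    rw [inner_self_eq_norm_sq_to_K, norm_pow, RCLike.norm_ofReal, abs_norm]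
  rw [h2] at h1
  have h3 : ‖T ξ‖ ^ 2 ≤ ‖T ξ‖ * (C * ‖ξ‖) := by
    refine le_of_tendsto h1 ?_
    filter_upwards [hf] with i hi
    refine (norm_inner_le_norm _ _).trans (mul_le_mul_of_nonneg_left ?_ (norm_nonneg _))
    exact ((f i).le_opNorm ξ).trans (mul_le_mul_of_nonneg_right hi (norm_nonneg _))
  rcases (norm_nonneg (T ξ)).eq_or_lt with h0 | h0
  · rw [← h0]; positivity
  · rw [sq] at h3
    exact le_of_mul_le_mul_left h3 h0

theorem exists_wl (U : Ultrafilter ι) (hf : ∀ i, ‖f i‖ ≤ C) : ∃ T, WL U f T := by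
  have h1 : ∀ ξ, ∃ ζ : K, ∀ η, Tendsto (fun i => ⟪f i ξ, η⟫_ℂ) U (𝓝 ⟪ζ, η⟫_ℂ) := fun ξ =>
    exists_wlim U (fun i => f i ξ) (C := C * ‖ξ‖) fun i =>
      ((f i).le_opNorm ξ).trans (mul_le_mul_of_nonneg_right (hf i) (norm_nonneg _))
  choose e he using h1
  have he' : ∀ ξ η, Tendsto (fun i => ⟪η, f i ξ⟫_ℂ) U (𝓝 ⟪η, e ξ⟫_ℂ) := by
    intro ξ η
    have h2 := (Complex.continuous_conj.tendsto _).comp (he ξ η)
    have h3 : (starRingEnd ℂ) ⟪e ξ, η⟫_ℂ = ⟪η, e ξ⟫_ℂ := inner_conj_symm _ _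
    rw [h3] at h2
    exact h2.congr fun i => inner_conj_symm _ _
  have hadd : ∀ x y, e (x + y) = e x + e y := fun x y => by
    refine ext_inner_left ℂ fun η => ?_
    rw [inner_add_right]
    refine tendsto_nhds_unique (he' (x + y) η) (((he' x η).add (he' y η)).congr fun i => ?_)
    rw [map_add, inner_add_right]
  have hsm : ∀ (c : ℂ) x, e (c • x) = c • e x := fun c x => by
    refine ext_inner_left ℂ fun η => ?_
    rw [inner_smul_right]
    refine tendsto_nhds_unique (he' (c • x) η) (((he' x η).const_mul c).congr fun i => ?_)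
    rw [map_smul, inner_smul_right]
  have hne : Nonempty ι := by
    by_contra hι
    rw [not_nonempty_iff] at hι
    exact U.neBot.ne (Filter.filter_eq_bot_of_isEmpty _)
  obtain ⟨i0⟩ := hne
  have hC : 0 ≤ C := (norm_nonneg _).trans (hf i0)
  have hn : ∀ ξ, ‖e ξ‖ ≤ C * ‖ξ‖ := by
    intro ξ
    have h1 := (he' ξ (e ξ)).norm
    have h2 : ‖⟪e ξ, e ξ⟫_ℂ‖ = ‖e ξ‖ ^ 2 := by
      rw [inner_self_eq_norm_sq_to_K, norm_pow, RCLike.norm_ofReal, abs_norm]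
    rw [h2] at h1
    have h3 : ‖e ξ‖ ^ 2 ≤ ‖e ξ‖ * (C * ‖ξ‖) := by
      refine le_of_tendsto h1 (Eventually.of_forall fun i => ?_)
      refine (norm_inner_le_norm _ _).trans (mul_le_mul_of_nonneg_left ?_ (norm_nonneg _))
      exact ((f i).le_opNorm ξ).trans (mul_le_mul_of_nonneg_right (hf i) (norm_nonneg _))
    rcases (norm_nonneg (e ξ)).eq_or_lt with h0 | h0
    · rw [← h0]; positivity
    · rw [sq] at h3
      exact le_of_mul_le_mul_left h3 h0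
  exact ⟨LinearMap.mkContinuous ⟨⟨e, hadd⟩, hsm⟩ C hn, fun ξ η => he' ξ η⟩

theorem WL.mono {l' : Filter ι} (h : WL l f T) (hl : l' ≤ l) : WL l' f T :=
  fun ξ η => (h ξ η).mono_left hl

theorem WL.const : WL l (fun _ => T) T := fun _ _ => tendsto_const_nhds

theorem WL.add (h : WL l f S) (h' : WL l g T) : WL l (fun i => f i + g i) (S + T) := by
  intro ξ η
  have h1 := (h ξ η).add (h' ξ η)
  rw [← inner_add_right] at h1
  exact h1.congr fun i => by rw [← inner_add_right]; rfl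

theorem WL.smul (h : WL l f S) (c : ℂ) : WL l (fun i => c • f i) (c • S) := by
  intro ξ η
  have h1 := (h ξ η).const_mul c
  rw [← inner_smul_right] at h1
  exact h1.congr fun i => by rw [← inner_smul_right]; rfl

theorem WL.sub (h : WL l f S) (h' : WL l g T) : WL l (fun i => f i - g i) (S - T) := by
  intro ξ η
  have h1 := (h ξ η).sub (h' ξ η)
  rw [← inner_sub_right] at h1
  exact h1.congr fun i => by rw [← inner_sub_right]; rfl

theorem WL.adj (h : WL l f T) : WL l (fun i => adjoint (f i)) (adjoint T) := by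
  intro ξ η
  have h1 := (Complex.continuous_conj.tendsto _).comp (h η ξ)
  have h2 : (starRingEnd ℂ) ⟪ξ, T η⟫_ℂ = ⟪η, adjoint T ξ⟫_ℂ := by
    rw [inner_conj_symm, adjoint_inner_right]
  rw [h2] at h1
  refine h1.congr fun i => ?_
  rw [Function.comp_apply, inner_conj_symm, adjoint_inner_right]

theorem WL.mul_left (h : WL l f T) (S : K →L[ℂ] K) : WL l (fun i => S * f i) (S * T) := by
  intro ξ η
  have h1 := h ξ (adjoint S η)
  rw [adjoint_inner_left] at h1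
  refine h1.congr fun i => ?_
  rw [adjoint_inner_left]; rfl

theorem WL.mul_right (h : WL l f T) (S : K →L[ℂ] K) : WL l (fun i => f i * S) (T * S) :=
  fun ξ η => h (S ξ) η

theorem WL.conj (h : WL l f T) (S S' : K →L[ℂ] K) : WL l (fun i => S * f i * S') (S * T * S') :=
  (h.mul_left S).mul_right S'

/-- Change by a weakly null family. -/
theorem WL.of_weak (h : WL l f T)
    (hd : ∀ ξ η, Tendsto (fun i => ⟪η, (f i - g i) ξ⟫_ℂ) l (𝓝 0)) : WL l g T := by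
  intro ξ η
  have h1 := (h ξ η).sub (hd ξ η)
  rw [sub_zero] at h1
  refine h1.congr fun i => ?_
  rw [sub_apply, inner_sub_right]
  ring

/-- Change by a strongly null family. -/
theorem WL.of_strong (h : WL l f T)
    (hd : ∀ ξ, Tendsto (fun i => (f i - g i) ξ) l (𝓝 0)) : WL l g T := by
  refine h.of_weak fun ξ η => ?_
  have h1 := (tendsto_const_nhds (x := η)).inner (𝕜 := ℂ) (hd ξ)
  rwa [inner_zero_right] at h1

theorem WL.of_lim (h : ∀ ξ, Tendsto (fun i => f i ξ) l (𝓝 (T ξ))) : WL l f T :=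
  fun ξ η => (tendsto_const_nhds (x := η)).inner (𝕜 := ℂ) (h ξ)

/-- Commutation in the limit. -/
theorem WL.comm [l.NeBot] (h : WL l f T) {S : K →L[ℂ] K}
    (hd : ∀ ξ η, Tendsto (fun i => ⟪η, (S * f i - f i * S) ξ⟫_ℂ) l (𝓝 0)) : S * T = T * S :=
  ((h.mul_left S).of_weak hd).uniq (h.mul_right S)

theorem WL.re_le [l.NeBot] (h : WL l f S) (h' : WL l g T) (ξ : K)
    (hle : ∀ᶠ i in l, (⟪ξ, f i ξ⟫_ℂ).re ≤ (⟪ξ, g i ξ⟫_ℂ).re) :
    (⟪ξ, S ξ⟫_ℂ).re ≤ (⟪ξ, T ξ⟫_ℂ).re :=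
  le_of_tendsto_of_tendsto ((Complex.continuous_re.tendsto _).comp (h ξ ξ))
    ((Complex.continuous_re.tendsto _).comp (h' ξ ξ)) hle

/-- **Bessel inequality in the limit.** -/
theorem WL.bes [l.NeBot] {J : Type} (s : Finset J) {f : J → ι → (K →L[ℂ] K)}
    {S : J → (K →L[ℂ] K)} (h : ∀ j ∈ s, WL l (f j) (S j)) (hg : WL l g T) (ξ : K)
    (hle : ∀ᶠ i in l, ∑ j ∈ s, ‖f j i ξ‖ ^ 2 ≤ (⟪ξ, g i ξ⟫_ℂ).re) :
    ∑ j ∈ s, ‖S j ξ‖ ^ 2 ≤ (⟪ξ, T ξ⟫_ℂ).re := by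
  have h1 : Tendsto (fun i => ∑ j ∈ s, (⟪S j ξ, f j i ξ⟫_ℂ).re) l (𝓝 (∑ j ∈ s, ‖S j ξ‖ ^ 2)) := by
    refine tendsto_finsetSum s fun j hj => ?_
    have h2 := (Complex.continuous_re.tendsto _).comp (h j hj ξ (S j ξ))
    have h3 : (⟪S j ξ, S j ξ⟫_ℂ).re = ‖S j ξ‖ ^ 2 := by
      rw [inner_self_eq_norm_sq_to_K]; norm_cast
    rw [h3] at h2
    exact h2
  have h2 := (Complex.continuous_re.tendsto _).comp (hg ξ ξ)
  have h3 : ∑ j ∈ s, ‖S j ξ‖ ^ 2 ≤ ((∑ j ∈ s, ‖S j ξ‖ ^ 2) + (⟪ξ, T ξ⟫_ℂ).re) / 2 := by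
    refine le_of_tendsto_of_tendsto h1 ((tendsto_const_nhds.add h2).div_const 2) ?_
    filter_upwards [hle] with i hi
    have h4 : ∑ j ∈ s, (⟪S j ξ, f j i ξ⟫_ℂ).re ≤
        ∑ j ∈ s, (‖S j ξ‖ ^ 2 + ‖f j i ξ‖ ^ 2) / 2 := by
      refine Finset.sum_le_sum fun j _ => ?_
      have h5 : (⟪S j ξ, f j i ξ⟫_ℂ).re ≤ ‖S j ξ‖ * ‖f j i ξ‖ :=
        (Complex.re_le_norm _).trans (norm_inner_le_norm _ _)
      nlinarith [sq_nonneg (‖S j ξ‖ - ‖f j i ξ‖)]
    rw [← Finset.sum_div, Finset.sum_add_distrib] at h4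
    simp only [Function.comp_apply]
    linarith
  linarith

end Vale.Agent.P092.H486.Eng
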