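import Vale.Agent.P092.H859.CNE
import Vale.Agent.P092.H486.EngA

/-!
P092 (helper486), Team P, block [P-ENG], part 2: the limits of the functions of the base point as
completely positive maps (weak limits along ultrafilters), without the separation hypothesis of the
engine of helper859. No multiplicativity is claimed.
-/

set_option linter.all false

open scoped InnerProductSpace Pointwise
open Filter Topology ContinuousLinearMap TopologicalSpace

namespace Vale.Agent.P092.H486.Eng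

open Vale.Agent.P092.H859.CL
open Vale.Agent.P092.H553 (ind ind_nonneg ind_le_one abs_ind_le ind_pos ind_neg)
open Vale.Agent.P092.H43 (Loc2)

section defs

variable {Γ Y : Type}

/-- The geometry of one type of wall, without separation. -/
structure GeoU [Group Γ] [TopologicalSpace Y] [MulAction Γ Y] (G1 G2 : Γ → ℝ) (bp : Γ → Y) :
    Prop where
  cact : ∀ s : Γ, Continuous fun y : Y => s • y
  fin : ∀ r, (FF G1 G2 r).Finite
  gap : ∀ s u, ∃ C, ∀ x, |G1 (s * x * u) - G1 x| ≤ C ∧ |G2 (s * x * u) - G2 x| ≤ C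
  stab : ∀ (s u : Γ) (f : C(Y, ℝ)) (ε : ℝ), 0 < ε → ∀ r, ∃ T, ∀ x, T ≤ G1 x → G2 x ≤ r →
    |f (bp (s * x * u)) - f (s • bp x)| ≤ ε

theorem GeoU.of_geoF [Group Γ] [TopologicalSpace Y] [MulAction Γ Y] {Br : ℝ → Set Γ}
    {G1 G2 : Γ → ℝ} {bp : Γ → Y} (h : H859.CN.GeoF Br G1 G2 bp) : GeoU G1 G2 bp :=
  ⟨h.cact, h.fin, h.gap, h.stab⟩

/-- The functions of the base point, cut off at the gap `G2 ≤ r`. -/
noncomputable def cfr (G1 G2 : Γ → ℝ) (bp : Γ → Y) (r : ℝ) (f : Y → ℂ) : Γ → ℂ :=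
  fun g => (ind (fun g => G2 g ≤ r) g : ℂ) * H859.CL.cfc G1 G2 bp f g

end defs

section bd

variable {Γ Y : Type} {G1 G2 : Γ → ℝ} {bp : Γ → Y}

theorem cfr_le (r : ℝ) (f : Y → ℂ) (g : Γ) : ‖cfr G1 G2 bp r f g‖ ≤ ‖H859.CL.cfc G1 G2 bp f g‖ := by
  rw [cfr, norm_mul, Complex.norm_real, Real.norm_eq_abs]
  exact mul_le_of_le_one_left (norm_nonneg _) (abs_ind_le _ g)

theorem cfr_supp {r : ℝ} {f : Y → ℂ} {g : Γ} (h : cfr G1 G2 bp r f g ≠ 0) :
    G2 g ≤ r ∧ G2 g ≤ G1 g ∧ f (bp g) ≠ 0 := by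
  have h1 : G2 g ≤ r := by
    by_contra h1
    rw [cfr, ind_neg (P := fun g => G2 g ≤ r) h1, Complex.ofReal_zero, zero_mul] at h
    exact h rfl
  have h2 : G2 g ≤ G1 g := by
    by_contra h2
    rw [cfr, H859.CL.cfc, ind_neg (P := fun g => G2 g ≤ G1 g) h2, Complex.ofReal_zero, zero_mul,
      mul_zero] at h
    exact h rfl
  refine ⟨h1, h2, fun h3 => h ?_⟩
  rw [cfr, H859.CL.cfc, h3, mul_zero, mul_zero]

/-- The difference of a function and its cut-off lives on the regular elements. -/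
theorem sub_cfr {r : ℝ} (f : Y → ℂ) {g : Γ} (h : H859.CL.cfc G1 G2 bp f g - cfr G1 G2 bp r f g ≠ 0) :
    g ∈ BB G1 G2 r := by
  by_cases h1 : G2 g ≤ r
  · rw [cfr, ind_pos (P := fun g => G2 g ≤ r) h1] at h
    simp at h
  · push Not at h1
    have h2 : G2 g ≤ G1 g := by
      by_contra h2
      rw [cfr, H859.CL.cfc, ind_neg (P := fun g => G2 g ≤ G1 g) h2] at h
      simp at h
    exact ⟨h1.trans_le h2, h1⟩

variable [TopologicalSpace Y] [CompactSpace Y]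

theorem cbd (f : C(Y, ℂ)) (g : Γ) : ‖H859.CL.cfc G1 G2 bp f g‖ ≤ ‖f‖ :=
  H859.CL.cfc_norm (fun y => f.norm_coe_le_norm y) g

theorem crd (r : ℝ) (f : C(Y, ℂ)) (g : Γ) : ‖cfr G1 G2 bp r f g‖ ≤ ‖f‖ :=
  (cfr_le r f g).trans (cbd f g)

end bd

section geo

variable {Γ Y : Type} [Group Γ] [TopologicalSpace Y] [MulAction Γ Y] {G1 G2 : Γ → ℝ} {bp : Γ → Y}

/-- Shifted functions of the base point. -/
theorem neg_shift (hG : GeoU G1 G2 bp) (s u : Γ) (f : C(Y, ℂ)) :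
    Neg G1 G2 fun g => H859.CL.cfc G1 G2 bp f (s * g * u) - H859.CL.cfc G1 G2 bp (fun y => f (s • y)) g := by
  intro ε hε r
  obtain ⟨C, hC⟩ := hG.gap s u
  obtain ⟨Tr, hTr⟩ := hG.stab s u ⟨fun y => (f y).re, Complex.continuous_re.comp f.continuous⟩
    (ε / 2) (by positivity) r
  obtain ⟨Ti, hTi⟩ := hG.stab s u ⟨fun y => (f y).im, Complex.continuous_im.comp f.continuous⟩
    (ε / 2) (by positivity) r
  obtain ⟨T, hT⟩ : ∃ T, T = max (max (max Tr Ti) (r + 2 * |C|)) r := ⟨_, rfl⟩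
  have m1 : Tr ≤ T := by
    rw [hT]; exact ((le_max_left _ _).trans (le_max_left _ _)).trans (le_max_left _ _)
  have m2 : Ti ≤ T := by
    rw [hT]; exact ((le_max_right _ _).trans (le_max_left _ _)).trans (le_max_left _ _)
  have m3 : r + 2 * |C| ≤ T := by rw [hT]; exact (le_max_right _ _).trans (le_max_left _ _)
  have m4 : r ≤ T := by rw [hT]; exact le_max_right _ _
  refine ⟨T, fun g hg => ?_⟩
  by_contra hn
  rw [Set.mem_union, not_or] at hn
  obtain ⟨n1, n2⟩ := hn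
  refine absurd hg (not_lt.mpr ?_)
  obtain ⟨c1, c2⟩ := hC g
  have hC0 : C ≤ |C| := le_abs_self C
  have hC1 := abs_nonneg C
  obtain ⟨a1, a2⟩ := abs_le.mp c1
  obtain ⟨b1, b2⟩ := abs_le.mp c2
  by_cases h2 : G2 g ≤ r
  · have h1 : T < G1 g := by
      by_contra h1
      push Not at h1
      exact n1 ⟨h1, h2.trans m4⟩
    have e1 : G2 g ≤ G1 g := by linarith
    have e2 : G2 (s * g * u) ≤ G1 (s * g * u) := by linarith
    simp only [H859.CL.cfc]
    rw [ind_pos (P := fun g => G2 g ≤ G1 g) e1, ind_pos (P := fun g => G2 g ≤ G1 g) e2]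
    simp only [Complex.ofReal_one, one_mul]
    have r1 := hTr g (m1.trans h1.le) h2
    have r2 := hTi g (m2.trans h1.le) h2
    simp only [ContinuousMap.coe_mk] at r1 r2
    have r3 := Complex.norm_le_abs_re_add_abs_im (f (bp (s * g * u)) - f (s • bp g))
    rw [Complex.sub_re, Complex.sub_im] at r3
    linarith
  · push Not at h2
    have h1 : G1 g ≤ r := by
      by_contra h1
      push Not at h1
      exact n2 ⟨h1, h2⟩
    have h3 : T < G2 g := by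
      by_contra h3
      push Not at h3
      exact n1 ⟨h1.trans m4, h3⟩
    have e1 : ¬ G2 g ≤ G1 g := by push Not; linarith
    have e2 : ¬ G2 (s * g * u) ≤ G1 (s * g * u) := by push Not; linarith
    simp only [H859.CL.cfc]
    rw [ind_neg (P := fun g => G2 g ≤ G1 g) e1, ind_neg (P := fun g => G2 g ≤ G1 g) e2]
    simp only [Complex.ofReal_zero, zero_mul, sub_zero, norm_zero]
    exact hε.le

/-- Right translation changes the functions of the base point by a negligible function. -/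
theorem neg_right (hG : GeoU G1 G2 bp) (u : Γ) (f : C(Y, ℂ)) :
    Neg G1 G2 fun g => H859.CL.cfc G1 G2 bp f (g * u) - H859.CL.cfc G1 G2 bp f g := by
  have h1 := neg_shift hG 1 u f
  simpa using h1

end geo

section asy

variable {Γ D K Y : Type} [Group Γ] [Group D] [NormedAddCommGroup K] [InnerProductSpace ℂ K]
  [CompleteSpace K] {mp : (Γ → ℝ) → (K →L[ℂ] K)} {R : D → (K →L[ℂ] K)} {Bd Bf : Set K}
  {ms : D → Set Γ → ℝ} {A : Subgroup D} {Br : ℝ → Set Γ} {G1 G2 : Γ → ℝ} {bp : Γ → Y}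
  {l : Filter D} {lam : Γ → (K →L[ℂ] K)} {W : Set (K →L[ℂ] K)} {C : ℝ}
  [TopologicalSpace Y] [CompactSpace Y] [MulAction Γ Y]

/-- Asymptotic covariance. -/
theorem asy_cov (h : H859.CN.SysF mp R Bd ms A Br G1 G2) (hG : GeoU G1 G2 bp)
    (hL : Leg mp R lam W) (he : Esc (st mp) R Bd A l) (s : Γ) {f f' : C(Y, ℂ)}
    (hff : ∀ y, f' (s • y) = f y) (ξ : K) :
    Tendsto (fun w => (lam s * PC mp R w (H859.CL.cfc G1 G2 bp f) * lam s⁻¹ -
      PC mp R w (H859.CL.cfc G1 G2 bp f')) ξ) l (𝓝 0) := by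
  have hf' : ∀ y, f' y = f (s⁻¹ • y) := fun y => by rw [← hff, smul_inv_smul]
  have h1 := neg_shift hG s⁻¹ 1 f
  have e1 : (fun g => H859.CL.cfc G1 G2 bp f (s⁻¹ * g * 1) -
      H859.CL.cfc G1 G2 bp (fun y => f (s⁻¹ • y)) g) =
      fun g => H859.CL.cfc G1 G2 bp f (s⁻¹ * g) + (-1) * H859.CL.cfc G1 G2 bp f' g := by
    funext g
    rw [mul_one]
    have : (fun y => f (s⁻¹ • y)) = (f' : Y → ℂ) := by funext y; rw [hf']
    rw [this]; ring
  rw [e1] at h1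
  have b1 : ∀ g, ‖H859.CL.cfc G1 G2 bp f (s⁻¹ * g)‖ ≤ ‖f‖ := fun g => cbd f _
  have b2 : ∀ g, ‖(-1) * H859.CL.cfc G1 G2 bp f' g‖ ≤ ‖f'‖ := fun g => by
    rw [norm_mul, norm_neg, norm_one, one_mul]; exact cbd f' g
  have h2 := H859.CN.negl_fn h hG.fin he (C := ‖f‖ + ‖f'‖)
    (fun g => (norm_add_le _ _).trans (add_le_add (b1 g) (b2 g))) h1 ξ
  refine squeeze_zero_norm (fun w => ?_) (tendsto_zero_iff_norm_tendsto_zero.mp h2)
  rw [PC_lam hL h.fn s (cbd f)]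
  rw [mc_add h.fn b1 b2, mc_smul h.fn _ (cbd f')]
  have e2 : (PC mp R w (fun g => H859.CL.cfc G1 G2 bp f (s⁻¹ * g)) - PC mp R w (H859.CL.cfc G1 G2 bp f')) ξ =
      R w⁻¹ ((mc mp (fun g => H859.CL.cfc G1 G2 bp f (s⁻¹ * g)) +
        (-1 : ℂ) • mc mp (H859.CL.cfc G1 G2 bp f')) (R w ξ)) := by
    rw [sub_apply, PC_ap, PC_ap, ← map_sub, add_apply, smul_apply, neg_one_smul, sub_eq_add_neg]
  rw [e2]
  exact h.sys.rep.norm_le _ _

/-- The norms after an additional `R v`. -/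
theorem norm_shift (h : H859.CN.SysF mp R Bd ms A Br G1 G2) (hL : Loc2 mp R Bd Bf)
    (hG : GeoU G1 G2 bp) (he : Esc (st mp) R Bd A l) (f : C(Y, ℂ)) (v : D) (ξ : K) :
    Tendsto (fun w => ‖mc mp (H859.CL.cfc G1 G2 bp f) (R v (R w ξ))‖ ^ 2 -
      ‖mc mp (H859.CL.cfc G1 G2 bp f) (R w ξ)‖ ^ 2) l (𝓝 0) := by
  obtain ⟨k, hk⟩ : ∃ k : C(Y, ℂ), k = star f * f := ⟨_, rfl⟩
  have ek : H859.CL.cfc G1 G2 bp k = fun g => (starRingEnd ℂ) (H859.CL.cfc G1 G2 bp f g) * H859.CL.cfc G1 G2 bp f g := by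
    have e0 : (k : Y → ℂ) = fun y => (starRingEnd ℂ) (f y) * f y := by
      rw [hk]; rfl
    rw [e0, H859.CL.cfc_mul, H859.CL.cfc_conj]
  have h1 := H43.N.lu2 h hL hG.fin he (F := H859.CL.cfc G1 G2 bp k) (cbd k)
    (fun u => neg_right hG u k) v ξ ξ
  have h2 := (Complex.continuous_re.tendsto _).comp h1
  rw [Complex.zero_re] at h2
  refine h2.congr fun w => ?_
  rw [Function.comp_apply, Complex.sub_re, ek, mc_sq h.fn (cbd f), mc_sq h.fn (cbd f)]

end asy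

/-! ### The limit maps -/

section lim

variable {Γ D K Y : Type} [Group Γ] [Group D] [NormedAddCommGroup K] [InnerProductSpace ℂ K]
  [CompleteSpace K] {mp : (Γ → ℝ) → (K →L[ℂ] K)} {R : D → (K →L[ℂ] K)} {Bd Bf : Set K}
  {ms : D → Set Γ → ℝ} {A : Subgroup D} {Br : ℝ → Set Γ} {G1 G2 : Γ → ℝ} {bp : Γ → Y}
  {l : Filter D} {lam : Γ → (K →L[ℂ] K)} {W : Set (K →L[ℂ] K)} {C : ℝ}
  [TopologicalSpace Y] [CompactSpace Y] {E : C(Y, ℂ) →ₗ[ℂ] (K →L[ℂ] K)}

/-- `E` is the weak limit of the functions of the base point. -/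
def IsU (mp : (Γ → ℝ) → (K →L[ℂ] K)) (R : D → (K →L[ℂ] K)) (G1 G2 : Γ → ℝ) (bp : Γ → Y)
    (l : Filter D) (E : C(Y, ℂ) →ₗ[ℂ] (K →L[ℂ] K)) : Prop :=
  ∀ f : C(Y, ℂ), WL l (fun w => PC mp R w (H859.CL.cfc G1 G2 bp f)) (E f)

/-- `E` is the weak limit of the cut-off functions of the base point. -/
def IsUr (mp : (Γ → ℝ) → (K →L[ℂ] K)) (R : D → (K →L[ℂ] K)) (G1 G2 : Γ → ℝ) (bp : Γ → Y) (r : ℝ)
    (l : Filter D) (E : C(Y, ℂ) →ₗ[ℂ] (K →L[ℂ] K)) : Prop :=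
  ∀ f : C(Y, ℂ), WL l (fun w => PC mp R w (cfr G1 G2 bp r f)) (E f)

/-- A family of linear maps given by bounded functions has a weak limit. -/
theorem exists_lin (hf : Fn mp) (hR : Rep R) (U : Ultrafilter D) {c : C(Y, ℂ) → Γ → ℂ}
    (hb : ∀ f g, ‖c f g‖ ≤ ‖f‖) (hadd : ∀ f f', c (f + f') = fun g => c f g + c f' g)
    (hsm : ∀ (a : ℂ) f, c (a • f) = fun g => a * c f g) :
    ∃ E : C(Y, ℂ) →ₗ[ℂ] (K →L[ℂ] K), ∀ f, WL U (fun w => PC mp R w (c f)) (E f) := by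
  have h1 : ∀ f, ∃ T, WL (U : Filter D) (fun w => PC mp R w (c f)) T := fun f =>
    exists_wl U (C := ‖f‖) fun w => PC_opNorm hf hR (norm_nonneg _) (hb f) w
  choose e he using h1
  refine ⟨⟨⟨e, fun f f' => ?_⟩, fun a f => ?_⟩, he⟩
  · refine (he (f + f')).uniq ?_
    have h2 := (he f).add (he f')
    intro ξ η
    refine (h2 ξ η).congr fun w => ?_
    dsimp only
    rw [hadd, PC_add hf (hb f) (hb f')]
  · refine (he (a • f)).uniq ?_
    have h2 := (he f).smul a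
    intro ξ η
    refine (h2 ξ η).congr fun w => ?_
    dsimp only
    rw [hsm, PC_smul hf a (hb f)]

theorem exists_isU (hf : Fn mp) (hR : Rep R) (U : Ultrafilter D) :
    ∃ E : C(Y, ℂ) →ₗ[ℂ] (K →L[ℂ] K), IsU mp R G1 G2 bp U E :=
  exists_lin hf hR U (c := fun f => H859.CL.cfc G1 G2 bp f) (fun f g => cbd f g)
    (fun f f' => H859.CL.cfc_add) (fun a f => H859.CL.cfc_smul a)

theorem exists_isUr (hf : Fn mp) (hR : Rep R) (U : Ultrafilter D) (r : ℝ) :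
    ∃ E : C(Y, ℂ) →ₗ[ℂ] (K →L[ℂ] K), IsUr mp R G1 G2 bp r U E := by
  refine exists_lin hf hR U (c := fun f => cfr G1 G2 bp r f) (fun f g => crd r f g)
    (fun f f' => ?_) (fun a f => ?_)
  · funext g
    have h1 := congrFun (H859.CL.cfc_add (G1 := G1) (G2 := G2) (bp := bp) (f := f) (g := f')) g
    change H859.CL.cfc G1 G2 bp (f + f' : C(Y, ℂ)) g = _ at h1
    simp only [cfr]
    rw [h1]; ring
  · funext g
    have h1 := congrFun (H859.CL.cfc_smul (G1 := G1) (G2 := G2) (bp := bp) (f := f) a) g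
    change H859.CL.cfc G1 G2 bp (a • f : C(Y, ℂ)) g = _ at h1
    simp only [cfr]
    rw [h1]; ring

theorem IsU.uniq [l.NeBot] {E' : C(Y, ℂ) →ₗ[ℂ] (K →L[ℂ] K)} (h : IsU mp R G1 G2 bp l E)
    (h' : IsU mp R G1 G2 bp l E') : E = E' := LinearMap.ext fun f => (h f).uniq (h' f)

theorem IsU.norm [l.NeBot] (h : IsU mp R G1 G2 bp l E) (hf : Fn mp) (hR : Rep R) (f : C(Y, ℂ)) :
    ‖E f‖ ≤ ‖f‖ :=
  (h f).norm_le (norm_nonneg _) (Eventually.of_forall fun w =>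
    PC_opNorm hf hR (norm_nonneg _) (fun g => cbd f g) w)

theorem cfc_star (f : C(Y, ℂ)) : H859.CL.cfc G1 G2 bp (star f : C(Y, ℂ)) =
    fun g => (starRingEnd ℂ) (H859.CL.cfc G1 G2 bp f g) := by
  have h1 := H859.CL.cfc_conj (G1 := G1) (G2 := G2) (bp := bp) (f := f)
  exact h1

theorem IsU.star [l.NeBot] (h : IsU mp R G1 G2 bp l E) (hf : Fn mp) (hR : Rep R) (f : C(Y, ℂ)) :
    E (star f) = adjoint (E f) := by
  refine (h (Star.star f)).uniq fun ξ η => ?_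
  refine ((h f).adj ξ η).congr fun w => ?_
  rw [cfc_star]
  dsimp only
  rw [PC_adj hf hR (F := H859.CL.cfc G1 G2 bp f) (fun g => cbd f g)]

theorem PC_sq_eq (hf : Fn mp) (hR : Rep R) (h1 : R 1 = 1) {F : Γ → ℂ} (hF : ∀ g, ‖F g‖ ≤ C)
    (w : D) (ξ : K) : ‖PC mp R w F ξ‖ ^ 2 =
      (⟪ξ, PC mp R w (fun g => (starRingEnd ℂ) (F g) * F g) ξ⟫_ℂ).re := by
  have h2 : (⟪ξ, PC mp R w (fun g => (starRingEnd ℂ) (F g) * F g) ξ⟫_ℂ).re =
      ‖mc mp F (R w ξ)‖ ^ 2 := by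
    rw [PC_ap, hR.inner_right, inv_inv, mc_sq hf hF]
  rw [h2, PC_ap, hR.norm_eq, h1]
  rfl

/-- **Bessel inequality** for the limit maps. -/
theorem IsU.bes [l.NeBot] (h : IsU mp R G1 G2 bp l E) (hf : Fn mp) (hR : Rep R)
    {J : Type} (s : Finset J) (v : J → C(Y, ℂ)) (ξ : K) :
    ∑ j ∈ s, ‖E (v j) ξ‖ ^ 2 ≤ (⟪ξ, E (∑ j ∈ s, Star.star (v j) * v j) ξ⟫_ℂ).re := by
  refine WL.bes s (fun j _ => h (v j)) (h (∑ j ∈ s, Star.star (v j) * v j)) ξ
    (Eventually.of_forall fun w => ?_)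
  have e : ∀ j, H859.CL.cfc G1 G2 bp (Star.star (v j) * v j : C(Y, ℂ)) =
      fun g => (starRingEnd ℂ) (H859.CL.cfc G1 G2 bp (v j) g) * H859.CL.cfc G1 G2 bp (v j) g := by
    intro j
    have h1 := H859.CL.cfc_mul (G1 := G1) (G2 := G2) (bp := bp) (f := fun y => (starRingEnd ℂ) (v j y))
      (g := v j)
    rw [H859.CL.cfc_conj] at h1
    exact h1
  classical
  have key : ∀ s : Finset J, PC mp R w (H859.CL.cfc G1 G2 bp (∑ j ∈ s, Star.star (v j) * v j : C(Y, ℂ))) =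
      ∑ j ∈ s, PC mp R w (fun g => (starRingEnd ℂ) (H859.CL.cfc G1 G2 bp (v j) g) * H859.CL.cfc G1 G2 bp (v j) g) := by
    intro s
    induction s using Finset.induction_on with
    | empty =>
      simp only [Finset.sum_empty]
      have h1 := PC_smul hf (R := R) 0 (F := fun _ => 0) (C := 0) (fun g => by simp) w
      have h2 : H859.CL.cfc G1 G2 bp (0 : C(Y, ℂ)) = fun g => (0 : ℂ) * (fun _ : Γ => (0 : ℂ)) g := by
        funext g; simp [H859.CL.cfc]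
      rw [h2, h1, zero_smul]
    | insert i s hi ih =>
      rw [Finset.sum_insert hi, Finset.sum_insert hi, ← ih, ← e i]
      have h1 := H859.CL.cfc_add (G1 := G1) (G2 := G2) (bp := bp)
        (f := (Star.star (v i) * v i : C(Y, ℂ))) (g := (∑ j ∈ s, Star.star (v j) * v j : C(Y, ℂ)))
      have h2 : H859.CL.cfc G1 G2 bp (Star.star (v i) * v i + ∑ j ∈ s, Star.star (v j) * v j : C(Y, ℂ)) =
          fun g => H859.CL.cfc G1 G2 bp (Star.star (v i) * v i : C(Y, ℂ)) g +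
            H859.CL.cfc G1 G2 bp (∑ j ∈ s, Star.star (v j) * v j : C(Y, ℂ)) g := h1
      rw [h2, PC_add hf (fun g => cbd _ g) (fun g => cbd _ g)]
  rw [key s, sum_apply, inner_sum, Complex.re_sum]
  exact Finset.sum_le_sum fun j _ => PC_sq hf hR (fun g => cbd (v j) g) w ξ

/-- Positivity and domination by the norm of the cut-offs. -/
theorem IsU.sq_le [l.NeBot] (h : IsU mp R G1 G2 bp l E) (hf : Fn mp) (hR : Rep R)
    (f : C(Y, ℂ)) (ξ : K) : ‖E f ξ‖ ^ 2 ≤ (⟪ξ, E (Star.star f * f) ξ⟫_ℂ).re := by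
  have h1 := h.bes hf hR (Finset.univ : Finset Unit) (fun _ => f) ξ
  simpa using h1

theorem IsU.tend_sq (h : IsU mp R G1 G2 bp l E) (hf : Fn mp) (hR : Rep R) (f : C(Y, ℂ)) (ξ : K) :
    Tendsto (fun w => ‖mc mp (H859.CL.cfc G1 G2 bp f) (R w ξ)‖ ^ 2) l
      (𝓝 (⟪ξ, E (Star.star f * f) ξ⟫_ℂ).re) := by
  have h1 := (Complex.continuous_re.tendsto _).comp (h (Star.star f * f) ξ ξ)
  refine h1.congr fun w => ?_
  have e : H859.CL.cfc G1 G2 bp (Star.star f * f : C(Y, ℂ)) =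
      fun g => (starRingEnd ℂ) (H859.CL.cfc G1 G2 bp f g) * H859.CL.cfc G1 G2 bp f g := by
    have h1 := H859.CL.cfc_mul (G1 := G1) (G2 := G2) (bp := bp) (f := fun y => (starRingEnd ℂ) (f y))
      (g := f)
    rw [H859.CL.cfc_conj] at h1
    exact h1
  rw [Function.comp_apply, e, PC_ap, hR.inner_right, inv_inv, mc_sq hf (fun g => cbd f g)]

variable [MulAction Γ Y]

/-- Covariance of the limit. -/
theorem IsU.cov [l.NeBot] (hE : IsU mp R G1 G2 bp l E) (h : H859.CN.SysF mp R Bd ms A Br G1 G2)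
    (hG : GeoU G1 G2 bp) (hL : Leg mp R lam W) (he : Esc (st mp) R Bd A l) (s : Γ)
    {f f' : C(Y, ℂ)} (hff : ∀ y, f' (s • y) = f y) : lam s * E f * lam s⁻¹ = E f' :=
  (((hE f).conj (lam s) (lam s⁻¹)).of_strong fun ξ => asy_cov h hG hL he s hff ξ).uniq (hE f')

omit [MulAction Γ Y] in
/-- The limit commutes with the coefficients. -/
theorem IsU.cm [l.NeBot] (hE : IsU mp R G1 G2 bp l E) (h : H859.CN.SysF mp R Bd ms A Br G1 G2)
    (hL : Leg mp R lam W) {a : K →L[ℂ] K} (ha : a ∈ W) (f : C(Y, ℂ)) : a * E f = E f * a := by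
  refine (hE f).comm fun ξ η => ?_
  have h1 : ∀ w, (a * PC mp R w (H859.CL.cfc G1 G2 bp f) - PC mp R w (H859.CL.cfc G1 G2 bp f) * a) = 0 := fun w => by
    rw [PC_W hL h.fn h.sys.rep ha (fun g => cbd f g) w, sub_self]
  simp only [h1, zero_apply, inner_zero_right]
  exact tendsto_const_nhds

omit [MulAction Γ Y] in
/-- The limit commutes with the contracted elements. -/
theorem IsU.contr [l.NeBot] [TopologicalSpace D] (hE : IsU mp R G1 G2 bp l E)
    (h : H859.CN.SysF mp R Bd ms A Br G1 G2) (hS : Slow mp R Bd) {n : D}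
    (hn : Tendsto (fun w => w * n * w⁻¹) l (𝓝 1)) (f : C(Y, ℂ)) : R n * E f = E f * R n := by
  refine (hE f).comm fun ξ η => ?_
  have h1 := (H859.CN.asy_slow h hS hn (F := H859.CL.cfc G1 G2 bp f) (fun g => cbd f g) ξ).neg
  rw [neg_zero] at h1
  have h2 := (tendsto_const_nhds (x := η)).inner (𝕜 := ℂ) h1
  rw [inner_zero_right] at h2
  refine h2.congr fun w => ?_
  rw [← ContinuousLinearMap.neg_apply, neg_sub]

/-- The limit commutes with the elements commuting with the elements of the filter. -/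
theorem IsU.cent [l.NeBot] (hE : IsU mp R G1 G2 bp l E)
    (h : H859.CN.SysF mp R Bd ms A Br G1 G2) (hL : Loc2 mp R Bd Bf) (hG : GeoU G1 G2 bp)
    (he : Esc (st mp) R Bd A l) {v : D} (hv : ∀ᶠ w in l, v * w = w * v) (f : C(Y, ℂ)) :
    R v * E f = E f * R v :=
  (hE f).comm fun ξ η => H43.N.lu_comm h hL hG.fin he (F := H859.CL.cfc G1 G2 bp f)
    (fun g => cbd f g) (fun u => neg_right hG u f) hv ξ η

omit [MulAction Γ Y] in
/-- Full mass. -/
theorem IsU.one [l.NeBot] (hE : IsU mp R G1 G2 bp l E) (hf : Fn mp) (h1 : R 1 = 1)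
    (hfu : Full (st mp) R G1 G2 l) : E 1 = 1 := by
  refine (hE 1).uniq (WL.of_lim fun ξ => ?_)
  have h2 := hfu ξ
  rw [h1] at h2
  refine h2.congr fun w => ?_
  have e : H859.CL.cfc G1 G2 bp (1 : C(Y, ℂ)) = fun g => ((ind (fun g => G2 g ≤ G1 g) g : ℝ) : ℂ) := by
    funext g; simp [H859.CL.cfc]
  rw [e, PC_real hf]
  rfl

omit [MulAction Γ Y] in
/-- The total mass is a positive contraction. -/
theorem IsU.one_mem [l.NeBot] (hE : IsU mp R G1 G2 bp l E) (hf : Fn mp) (hR : Rep R) (ξ : K) :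
    0 ≤ (⟪ξ, E 1 ξ⟫_ℂ).re ∧ (⟪ξ, E 1 ξ⟫_ℂ).re ≤ ‖ξ‖ ^ 2 := by
  have h1 := hE.tend_sq hf hR 1 ξ
  rw [star_one, one_mul] at h1
  refine ⟨ge_of_tendsto h1 (Eventually.of_forall fun w => by positivity),
    le_of_tendsto h1 (Eventually.of_forall fun w => ?_)⟩
  refine pow_le_pow_left₀ (norm_nonneg _) ?_ 2
  have h2 := mc_norm hf zero_le_one (F := H859.CL.cfc G1 G2 bp (1 : C(Y, ℂ))) (fun g => ?_) (R w ξ)
  · rw [one_mul] at h2
    exact h2.trans (hR.norm_le _ _)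
  · exact H859.CL.cfc_norm (fun y => by simp) g

end lim

end Vale.Agent.P092.H486.Eng
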