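import Vale.Agent.P092.H486.EngJ
import Vale.Agent.P092.SP.Defs
import Vale.Agent.P092.H899.T4
import Vale.Agent.P092.H899.P1
import Vale.Agent.P092.H494.PAgr
import Vale.Agent.P092.H714.SpM5
import Vale.Agent.P092.H370.Sp4b

/-!
P092 (helper486), Team P, block [P-ENG], part 7: pull back of the engine's inputs along
`ι : S4 k →* E`; the four families of one leg in the letters of `SP/Defs`.
-/

set_option linter.all false

open scoped InnerProductSpace Pointwise ENNReal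
open Filter Topology ContinuousLinearMap TopologicalSpace

namespace Vale.Agent.P092.H486.Eng

open Vale.Agent.P092.H859.CL
open Vale.Agent.P092.H43 (Loc2)
open Vale.Agent.P092.RC (Pic Moore Cm TRN YY y0)
open Vale.Agent.P092.SD (Ms)
open Vale.Agent.P092.SP4 (S4 LL on)
open Vale.Agent.P092.SP (B1 B2 l0 NA1 NA2 nm act UFam Adm)
open Vale.Agent.P092.H899.T (l1 l2 bpt bln actP actL geoW_pt geoW_ln domCut_pt domCut_ln)

/-! ### Pull back along a homomorphism of the source -/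

section comap

variable {E E' Γ Y K : Type} [Group E] [TopologicalSpace E] [Group E'] [TopologicalSpace E']
  [Group Γ] [NormedAddCommGroup K] [InnerProductSpace ℂ K] [CompleteSpace K]
  {π : E →* (K →L[ℂ] K)} {lam : Γ →* (K →L[ℂ] K)} {W : Set (K →L[ℂ] K)} {Ω : K}
  {mp : (Γ → ℝ) → (K →L[ℂ] K)} {Bd Bf : Set K} {G1 G2 : Γ → ℝ} {bp : Γ → Y}
  {Br : ℝ → Set Γ} {ms : E → Set Γ → ℝ} {A : Subgroup E}

theorem pic_comap (ι : E' →* E) (hc : Continuous ι) (hs : Function.Surjective ι)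
    (h : Pic π lam W Ω) : Pic (π.comp ι) lam W Ω where
  adjP g := by
    change adjoint (π (ι g)) = π (ι g⁻¹)
    rw [h.adjP, map_inv ι]
  contP ξ := (h.contP ξ).comp hc
  adjL := h.adjL
  comm g γ := h.comm (ι g) γ
  Wadj := h.Wadj
  WP w hw g := by
    change π (ι g) * w * π (ι g⁻¹) ∈ W
    rw [map_inv ι]
    exact h.WP w hw (ι g)
  WL := h.WL
  nΩ := h.nΩ
  erg S hS T hT hl hg := by
    refine h.erg (ι '' S) (H714.Sp.moore_image ι hc hs hS) T hT hl ?_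
    rintro _ ⟨g, hg', rfl⟩
    exact hg g hg'
  tr_adj := h.tr_adj
  tr_conj T hT g := by
    change TRN lam Ω (π (ι g) * T * π (ι g⁻¹)) = _
    rw [map_inv ι]
    exact h.tr_conj T hT (ι g)
  tr_zero := h.tr_zero
  hs_erg S hS T hT ht hg := by
    refine h.hs_erg (ι '' S) (H714.Sp.moore_image ι hc hs hS) T hT ht ?_
    rintro _ ⟨g, hg', rfl⟩
    exact hg g hg'
  inv T hT hg γ := by
    refine h.inv T hT (fun g => ?_) γ
    obtain ⟨g, rfl⟩ := hs g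
    exact hg g

theorem sys_comap (ι : E' →* E)
    (h : H859.CN.SysF mp (fun g => π g) Bd ms A Br G1 G2) :
    H859.CN.SysF mp (fun g => (π.comp ι) g) Bd (fun g => ms (ι g)) (A.comap ι) Br G1 G2 where
  fn := h.fn
  sys :=
    { prj := h.sys.prj
      rep := ⟨fun v w => map_mul (π.comp ι) v w, fun v => by
        have := h.sys.rep.adj (ι v)
        change adjoint (π (ι v)) = π (ι v⁻¹)
        rw [map_inv ι]
        exact this⟩
      dense := h.sys.dense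
      norm := h.sys.norm
      map := fun v ξ hξ => h.sys.map (ι v) ξ hξ
      sep := fun u => h.sys.sep (ι u)
      nrm := fun ε hε => by
        obtain ⟨r, hr⟩ := h.sys.nrm ε hε
        exact ⟨r, fun u hu => hr (ι u) hu⟩
      nrv := fun ξ hξ ε hε => by
        obtain ⟨r, hr⟩ := h.sys.nrv ξ hξ ε hε
        exact ⟨r, fun u hu => hr (ι u) hu⟩ }
  mpb := h.mpb

theorem leg_comap (ι : E' →* E) (h : Leg mp (fun g => π g) (fun γ => lam γ) W) :
    Leg mp (fun g => (π.comp ι) g) (fun γ => lam γ) W where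
  one := map_one (π.comp ι)
  lmul := h.lmul
  lone := h.lone
  comm g γ := h.comm (ι g) γ
  cov := h.cov
  WP w hw g := by
    change π (ι g) * w * π (ι g⁻¹) ∈ W
    rw [map_inv ι]
    exact h.WP w hw (ι g)
  Wm := h.Wm

theorem slow_comap (ι : E' →* E) (hc : Continuous ι) (h : Slow mp (fun g => π g) Bd) :
    Slow mp (fun g => (π.comp ι) g) Bd := by
  intro ε hε
  have h1 : Tendsto ι (𝓝 1) (𝓝 1) := by
    have := hc.tendsto 1
    rwa [map_one] at this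
  exact h1.eventually (h ε hε)

theorem loc2_comap (ι : E' →* E) (h : Loc2 mp (fun g => π g) Bd Bf) :
    Loc2 mp (fun g => (π.comp ι) g) Bd Bf where
  sub := h.sub
  dense := h.dense
  map v := h.map (ι v)
  loc v := h.loc (ι v)

theorem esc_comap (ι : E' →* E) {m : Set Γ → (K →L[ℂ] K)} {b : E'}
    (h : Esc m (fun g => π g) Bd A (pw (ι b)⁻¹)) :
    Esc m (fun g => (π.comp ι) g) Bd (A.comap ι) (pw b⁻¹) where
  mem := by
    have h1 := h.mem
    rw [pw, eventually_map] at h1 ⊢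
    filter_upwards [h1] with n hn
    rw [Subgroup.mem_comap, map_pow, map_inv ι]
    exact hn
  esc g ξ hξ := by
    have h1 := h.esc g ξ hξ
    rw [pw, tendsto_map'_iff] at h1 ⊢
    refine h1.congr fun n => ?_
    simp only [Function.comp_apply]
    change ‖m {g} (π ((ι b)⁻¹ ^ n) ξ)‖ = ‖m {g} (π (ι (b⁻¹ ^ n)) ξ)‖
    rw [map_pow ι, map_inv ι]

end comap

/-! ### The fields of `SP.UFam` -/

section sp

variable {k : Type} [NontriviallyNormedField k] [ProperSpace k] {E Γ K : Type} [Group E]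
  [TopologicalSpace E] [Group Γ] [NormedAddCommGroup K] [InnerProductSpace ℂ K] [CompleteSpace K]
  {π : E →* (K →L[ℂ] K)} {lam : Γ →* (K →L[ℂ] K)} {W : Set (K →L[ℂ] K)} {Ω : K}
  {mp : (Γ → ℝ) → (K →L[ℂ] K)} {q : Γ → S4 k} {𝒰 : Ultrafilter ℕ}
  {X Y : Type} [MulAction (S4 k) X] [TopologicalSpace Y] [CompactSpace Y]
  [MulAction (S4 k) Y] [ContinuousConstSMul (S4 k) Y] {G1 G2 : Γ → ℝ} {bp : Γ → Y}
  {NA : ℝ → ℝ → Set Y → Set Γ} {v0 : X} {b : S4 k}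
  {U : X → (C(Y, ℂ) →ₗ[ℂ] (K →L[ℂ] K))} {p : ℝ}

/-- **`UFamE` over `S4 k` gives `SP.UFam`.** -/
theorem ufam_sp [MulAction Γ Y] (hY : ∀ γ (y : Y), γ • y = q γ • y) {ι : S4 k →* E}
    (h : UFamE mp (π.comp ι) lam W b G1 G2 bp 𝒰 NA v0 U p)
    (agr : p ≠ 0 → ∀ v v', v ≠ v' → ∀ ξ, (∀ f, U v f ξ = U v' f ξ) → ξ = 0) :
    UFam 𝒰 b v0 ι π lam W (st mp) q NA U p where
  ul := h.ul
  cm := h.cm
  cov γ v f := h.cov γ v f (act (q γ) f) fun y => by
    change f ((q γ)⁻¹ • γ • y) = f y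
    rw [hY, inv_smul_smul]
  pcov g v f := by
    have h1 := h.pcov g v f
    rw [← h1]
    change π (ι g) * U v f * π (ι g)⁻¹ = π (ι g) * U v f * π (ι g⁻¹)
    rw [map_inv ι]
  dom g u A hA hu ζ ε hε := by
    obtain ⟨R, hR⟩ := h.dom g u A hA hu ζ ε hε
    refine ⟨R, fun T hT => ?_⟩
    filter_upwards [hR T hT] with N hN
    have e : (π.comp ι) (g * b ^ N * g⁻¹)⁻¹ = π (ι (g * b ^ N * g⁻¹))⁻¹ := by
      change π (ι (g * b ^ N * g⁻¹)⁻¹) = _
      rw [map_inv ι]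
    rwa [e] at hN
  agr := agr

/-- agreement, in the letters of `UFam` -/
theorem agr_of (hp : Pic π lam W Ω) {ι : S4 k →* E} (hc : Continuous ι)
    (hs : Function.Surjective ι)
    (ul : ∀ v, SP.UL (U v) p) (cm : ∀ v f, Cm W (U v f))
    (cov : ∀ γ v f, lam γ * U v f * lam γ⁻¹ = U v (act (q γ) f))
    (pcov : ∀ g v f, π (ι g) * U v f * π (ι g)⁻¹ = U (g • v) f)
    (nis : H76.Pur.NIS fun (γ : Γ) (y : Y) => q γ • y)
    (hM : ∀ v v' : X, Moore {h : S4 k | h • v = v ∧ h • v' = v'})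
    (hgen : ∀ v v' : X, v ≠ v' →
      Subgroup.closure ({h : S4 k | h • v = v} ∪ {h : S4 k | h • v' = v'}) = ⊤) :
    p ≠ 0 → ∀ v v', v ≠ v' → ∀ ξ, (∀ f, U v f ξ = U v' f ξ) → ξ = 0 := by
  intro hp0 v v' hv
  exact H494.PAg.agr_fam hp ι hs (E := U) ul hp0 cm (H494.PAg.hact_of_act q) nis
    (fun v => H494.PAg.cov_of_act (fun g f => act g f) (fun g f x => rfl) fun γ f => cov γ v f)
    (fun h v f => pcov h v f) (H714.Sp.moore_image ι hc hs (hM v v')) (hgen v v' hv)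

end sp

/-! ### One wall, both types of the target -/

section wall

variable {k : Type} [NontriviallyNormedField k] [ProperSpace k] {E Γ K : Type} [Group E]
  [TopologicalSpace E] [Group Γ] [NormedAddCommGroup K] [InnerProductSpace ℂ K] [CompleteSpace K]
  {π : E →* (K →L[ℂ] K)} {lam : Γ →* (K →L[ℂ] K)} {W : Set (K →L[ℂ] K)} {Ω : K}
  {mp : (Γ → ℝ) → (K →L[ℂ] K)} {Bd Bf : Set K} {ms : E → Set Γ → ℝ} {q : Γ → S4 k}
  {𝒰 : Ultrafilter ℕ} {ι : S4 k →* E} {a : E →* RC.PG k 4}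

/-- The engine's inputs of one picture. -/
structure PicIn (mp : (Γ → ℝ) → (K →L[ℂ] K)) (π : E →* (K →L[ℂ] K)) (lam : Γ →* (K →L[ℂ] K))
    (W : Set (K →L[ℂ] K)) (Ω : K) (Bd Bf : Set K) : Prop where
  pic : Pic π lam W Ω
  ms : Ms lam W Ω (st mp)
  leg : Leg mp (fun g => π g) (fun γ => lam γ) W
  slow : Slow mp (fun g => π g) Bd
  loc : Loc2 mp (fun g => π g) Bd Bf

/-- The engine's inputs of one wall `b` of the source. -/
structure WallIn (mp : (Γ → ℝ) → (K →L[ℂ] K)) (π : E →* (K →L[ℂ] K)) (Bd : Set K)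
    (ms : E → Set Γ → ℝ) (q : Γ → S4 k) (b : E) : Prop where
  s12 : H859.CL.SysF mp (fun g => π g) Bd ms (Subgroup.zpowers b) (fun γ => l1 (q γ))
    fun γ => l2 (q γ)
  s21 : H859.CL.SysF mp (fun g => π g) Bd ms (Subgroup.zpowers b) (fun γ => l2 (q γ))
    fun γ => l1 (q γ)
  esc : Esc (st mp) (fun g => π g) Bd (Subgroup.zpowers b) (pw b⁻¹)

/-- The two families of one wall, raw form. -/
structure Fam2 {X : Type} [MulAction (S4 k) X] (mp : (Γ → ℝ) → (K →L[ℂ] K))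
    (π : E →* (K →L[ℂ] K)) (lam : Γ →* (K →L[ℂ] K)) (W : Set (K →L[ℂ] K)) (ι : S4 k →* E)
    (hq : SP.PH q) (𝒰 : Ultrafilter ℕ) (b : S4 k) (v0 : X)
    (U : X → (C(YY k 3, ℂ) →ₗ[ℂ] (K →L[ℂ] K))) (p : ℝ)
    (V : X → (C(LL k, ℂ) →ₗ[ℂ] (K →L[ℂ] K))) (r : ℝ) : Prop where
  pt : letI := actP hq
    UFamE mp (π.comp ι) lam W b (fun γ => l1 (q γ)) (fun γ => l2 (q γ)) (fun γ => bpt (q γ)) 𝒰
      (NA1 q) v0 U p
  ln : letI := actL hq
    UFamE mp (π.comp ι) lam W b (fun γ => l2 (q γ)) (fun γ => l1 (q γ)) (fun γ => bln (q γ)) 𝒰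
      (NA2 q) v0 V r
  sum : p + r = 1

theorem fam2 {X : Type} [MulAction (S4 k) X] (adm : Adm ι a) (h𝒰 : (𝒰 : Filter ℕ) ≤ atTop)
    (hE : PicIn mp π lam W Ω Bd Bf) (hq : SP.PH q)
    (fin : ∀ C : ℝ, {γ | nm (q γ) ≤ C}.Finite) {b : S4 k} {v0 : X}
    (hW : WallIn mp π Bd ms q (ι b)) (htr : ∀ v : X, ∃ g : S4 k, g • v0 = v)
    (hst : ∀ g : S4 k, g • v0 = v0 → ∃ v n : S4 k, g = v * n ∧ v * b = b * v ∧
      Tendsto (fun N : ℕ => (b ^ N)⁻¹ * n * b ^ N) atTop (𝓝 1))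
    (hM : Moore {g : S4 k | g • v0 = v0}) : ∃ U p V r, Fam2 mp π lam W ι hq 𝒰 b v0 U p V r := by
  have h1 := sys_comap ι (sysF_cn hW.s12)
  have h2 := sys_comap ι (sysF_cn hW.s21)
  have hp := pic_comap ι adm.cι adm.sur hE.pic
  have he := esc_comap ι hW.esc
  obtain ⟨U, p, -, -, hU⟩ := by
    letI := actP hq
    exact ufam h𝒰 hp hM h1 (leg_comap ι hE.leg) (H899.T.geoU_pt hq fin)
      (slow_comap ι adm.cι hE.slow) (loc2_comap ι hE.loc) he (domCut_pt q) htr hst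
  obtain ⟨V, r, -, -, hV⟩ := by
    letI := actL hq
    exact ufam h𝒰 hp hM h2 (leg_comap ι hE.leg) (H899.T.geoU_ln hq fin)
      (slow_comap ι adm.cι hE.slow) (loc2_comap ι hE.loc) he (domCut_ln q) htr hst
  refine ⟨U, p, V, r, hU, hV, ?_⟩
  letI := actP hq
  letI := actL hq
  exact sum_one h𝒰 hp h1 (H899.T.fin_l fin) he hU hV

omit [ProperSpace k] in
theorem clo_top {X : Type} [MulAction (S4 k) X] {v v' : X}
    (h : ∀ H : Subgroup (S4 k), (∀ g : S4 k, g • v = v → g ∈ H) → (∀ g : S4 k, g • v' = v' → g ∈ H) →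
      H = ⊤) : Subgroup.closure ({h : S4 k | h • v = v} ∪ {h : S4 k | h • v' = v'}) = ⊤ :=
  h _ (fun g hg => Subgroup.subset_closure (Or.inl hg))
    fun g hg => Subgroup.subset_closure (Or.inr hg)

/-- The two families of one wall, in the letters of `SP/Defs`. -/
theorem Fam2.sp {X : Type} [MulAction (S4 k) X] (adm : Adm ι a) (hp : Pic π lam W Ω)
    {hq : SP.PH q} {b : S4 k} {v0 : X} {U : X → (C(YY k 3, ℂ) →ₗ[ℂ] (K →L[ℂ] K))} {p : ℝ}
    {V : X → (C(LL k, ℂ) →ₗ[ℂ] (K →L[ℂ] K))} {r : ℝ}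
    (h : Fam2 mp π lam W ι hq 𝒰 b v0 U p V r)
    (nis1 : H76.Pur.NIS fun (γ : Γ) (y : YY k 3) => q γ • y)
    (nis2 : H76.Pur.NIS fun (γ : Γ) (y : LL k) => q γ • y)
    (hM : ∀ v v' : X, Moore {h : S4 k | h • v = v ∧ h • v' = v'})
    (hg : ∀ v v' : X, v ≠ v' →
      Subgroup.closure ({h : S4 k | h • v = v} ∪ {h : S4 k | h • v' = v'}) = ⊤) :
    UFam 𝒰 b v0 ι π lam W (st mp) q (NA1 q) U p ∧ UFam 𝒰 b v0 ι π lam W (st mp) q (NA2 q) V r := by
  constructor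
  · letI := actP hq
    refine ufam_sp (mp := mp) (G1 := fun γ => l1 (q γ)) (G2 := fun γ => l2 (q γ))
      (bp := fun γ => bpt (q γ)) (fun γ y => rfl) h.pt ?_
    refine agr_of hp adm.cι adm.sur h.pt.ul h.pt.cm (fun γ v f => ?_) (fun g v f => ?_) nis1 hM hg
    · exact h.pt.cov γ v f (act (q γ) f) fun y => by
        change f ((q γ)⁻¹ • q γ • y) = f y
        rw [inv_smul_smul]
    · rw [← h.pt.pcov g v f]
      change π (ι g) * U v f * π (ι g)⁻¹ = π (ι g) * U v f * π (ι g⁻¹)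
      rw [map_inv ι]
  · letI := actL hq
    refine ufam_sp (mp := mp) (G1 := fun γ => l2 (q γ)) (G2 := fun γ => l1 (q γ))
      (bp := fun γ => bln (q γ)) (fun γ y => rfl) h.ln ?_
    refine agr_of hp adm.cι adm.sur h.ln.ul h.ln.cm (fun γ v f => ?_) (fun g v f => ?_) nis2 hM hg
    · exact h.ln.cov γ v f (act (q γ) f) fun y => by
        change f ((q γ)⁻¹ • q γ • y) = f y
        rw [inv_smul_smul]
    · rw [← h.ln.pcov g v f]
      change π (ι g) * V v f * π (ι g)⁻¹ = π (ι g) * V v f * π (ι g⁻¹)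
      rw [map_inv ι]

/-- **The engine part of one leg**: the four families, in raw form and in the letters of `SP/Defs`.
-/
theorem four (adm : Adm ι a) (h𝒰 : (𝒰 : Filter ℕ) ≤ atTop) (hE : PicIn mp π lam W Ω Bd Bf)
    (hq : SP.PH q) (fin : ∀ C : ℝ, {γ | nm (q γ) ≤ C}.Finite)
    (nis1 : H76.Pur.NIS fun (γ : Γ) (y : YY k 3) => q γ • y)
    (nis2 : H76.Pur.NIS fun (γ : Γ) (y : LL k) => q γ • y) {w : kˣ} (hw : ‖(w : k)‖ < 1)
    (hW1 : WallIn mp π Bd ms q (ι (B1 w))) (hW2 : WallIn mp π Bd ms q (ι (B2 w))) :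
    ∃ U11 p11 U12 p12 U21 p21 U22 p22,
      Fam2 mp π lam W ι hq 𝒰 (B1 w) (y0 : YY k 3) U11 p11 U12 p12 ∧
      Fam2 mp π lam W ι hq 𝒰 (B2 w) (l0 : LL k) U21 p21 U22 p22 ∧
      UFam 𝒰 (B1 w) (y0 : YY k 3) ι π lam W (st mp) q (NA1 q) U11 p11 ∧
      UFam 𝒰 (B1 w) (y0 : YY k 3) ι π lam W (st mp) q (NA2 q) U12 p12 ∧
      UFam 𝒰 (B2 w) (l0 : LL k) ι π lam W (st mp) q (NA1 q) U21 p21 ∧
      UFam 𝒰 (B2 w) (l0 : LL k) ι π lam W (st mp) q (NA2 q) U22 p22 ∧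
      p11 + p12 = 1 ∧ p21 + p22 = 1 := by
  have mP : ∀ v v' : YY k 3, Moore {h : S4 k | h • v = v ∧ h • v' = v'} := H714.S4M.moore_pp
  have mL : ∀ v v' : LL k, Moore {h : S4 k | h • v = v ∧ h • v' = v'} := H714.S4M.moore_ll
  obtain ⟨U11, p11, U12, p12, hF1⟩ := fam2 (v0 := (y0 : YY k 3)) adm h𝒰 hE hq fin hW1
    (SP4.trans_pt y0) (fun g hg => H899.P.stab_y0 hw hg)
    (H455.moore_mono (mP y0 y0) fun g hg => hg.1)
  obtain ⟨U21, p21, U22, p22, hF2⟩ := fam2 (v0 := (l0 : LL k)) adm h𝒰 hE hq fin hW2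
    (SP4.trans_ln l0) (fun g hg => H899.P.stab_l0 hw hg)
    (H455.moore_mono (mL l0 l0) fun g hg => hg.1)
  obtain ⟨u11, u12⟩ := hF1.sp adm hE.pic nis1 nis2 mP fun v v' hv =>
    clo_top fun H h1 h2 => H714.S4M.gen_pp hv h1 h2
  obtain ⟨u21, u22⟩ := hF2.sp adm hE.pic nis1 nis2 mL fun v v' hv =>
    clo_top fun H h1 h2 => H714.S4M.gen_ll hv h1 h2
  exact ⟨U11, p11, U12, p12, U21, p21, U22, p22, hF1, hF2, u11, u12, u21, u22, hF1.sum, hF2.sum⟩

end wall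

end Vale.Agent.P092.H486.Eng
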