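import Vale.Agent.P092.H486.EngB

/-!
P092 (helper486), Team P, block [P-ENG], part 3: the cut-off maps, domination by the cut-offs, the
family of completely positive maps over a homogeneous space `Z` of the source group.
-/

set_option linter.all false

open scoped InnerProductSpace Pointwise
open Filter Topology ContinuousLinearMap TopologicalSpace

namespace Vale.Agent.P092.H486.Eng

open Vale.Agent.P092.H859.CL
open Vale.Agent.P092.H553 (ind ind_nonneg ind_le_one abs_ind_le ind_pos ind_neg)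
open Vale.Agent.P092.H43 (Loc2 loc_at)
open Vale.Agent.P092.H107 (LocAt)
open Vale.Agent.P092.RC (Pic Moore Cm)

theorem WL.vec_le {ι K : Type} [NormedAddCommGroup K] [InnerProductSpace ℂ K] [CompleteSpace K]
    {l : Filter ι} {f : ι → (K →L[ℂ] K)} {T : K →L[ℂ] K} [l.NeBot] (h : WL l f T) (ξ : K) {c : ℝ}
    (hc : 0 ≤ c) (hf : ∀ᶠ i in l, ‖f i ξ‖ ≤ c) : ‖T ξ‖ ≤ c := by
  have h1 := (h ξ (T ξ)).norm
  have h2 : ‖⟪T ξ, T ξ⟫_ℂ‖ = ‖T ξ‖ ^ 2 := by
    rw [inner_self_eq_norm_sq_to_K, norm_pow, RCLike.norm_ofReal, abs_norm]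
  rw [h2] at h1
  have h3 : ‖T ξ‖ ^ 2 ≤ ‖T ξ‖ * c := by
    refine le_of_tendsto h1 ?_
    filter_upwards [hf] with i hi
    exact (norm_inner_le_norm _ _).trans (mul_le_mul_of_nonneg_left hi (norm_nonneg _))
  rcases (norm_nonneg (T ξ)).eq_or_lt with h0 | h0
  · rw [← h0]; exact hc
  · rw [sq] at h3
    exact le_of_mul_le_mul_left h3 h0

section lim

variable {Γ D K Y : Type} [Group Γ] [Group D] [NormedAddCommGroup K] [InnerProductSpace ℂ K]
  [CompleteSpace K] {mp : (Γ → ℝ) → (K →L[ℂ] K)} {R : D → (K →L[ℂ] K)} {Bd Bf : Set K}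
  {ms : D → Set Γ → ℝ} {A : Subgroup D} {Br : ℝ → Set Γ} {G1 G2 : Γ → ℝ} {bp : Γ → Y}
  {l : Filter D} {lam : Γ → (K →L[ℂ] K)} {W : Set (K →L[ℂ] K)} {C : ℝ}
  [TopologicalSpace Y] [CompactSpace Y] {E Er : C(Y, ℂ) →ₗ[ℂ] (K →L[ℂ] K)} {r : ℝ}

theorem cfr_mul_self (f : C(Y, ℂ)) : cfr G1 G2 bp r (Star.star f * f : C(Y, ℂ)) =
    fun g => (starRingEnd ℂ) (cfr G1 G2 bp r f g) * cfr G1 G2 bp r f g := by
  funext g
  have h1 := H859.CL.cfc_mul (G1 := G1) (G2 := G2) (bp := bp) (f := fun y => (starRingEnd ℂ) (f y))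
    (g := f)
  rw [H859.CL.cfc_conj] at h1
  have h2 : H859.CL.cfc G1 G2 bp (Star.star f * f : C(Y, ℂ)) g =
      (starRingEnd ℂ) (H859.CL.cfc G1 G2 bp f g) * H859.CL.cfc G1 G2 bp f g := congrFun h1 g
  simp only [cfr]
  rw [h2, map_mul, Complex.conj_ofReal]
  by_cases h3 : G2 g ≤ r
  · rw [ind_pos (P := fun g => G2 g ≤ r) h3]; simp
  · rw [ind_neg (P := fun g => G2 g ≤ r) h3]; simp

/-- **The cut-off maps converge strongly**, uniformly on the unit ball of `C(Y)`. -/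
theorem cut_close [l.NeBot] (h : H859.CN.SysF mp R Bd ms A Br G1 G2) (he : Esc (st mp) R Bd A l)
    (hE : IsU mp R G1 G2 bp l E) (ξ : K) {ε : ℝ} (hε : 0 < ε) :
    ∃ r0, ∀ r ≥ r0, ∀ Er : C(Y, ℂ) →ₗ[ℂ] (K →L[ℂ] K), IsUr mp R G1 G2 bp r l Er →
      ∀ f, ‖E f ξ - Er f ξ‖ ≤ ‖f‖ * ε := by
  obtain ⟨r0, hr0⟩ := h.sys.nrv' ξ hε
  refine ⟨r0, fun r hr Er hEr f => ?_⟩
  have h1 := ((hE f).sub (hEr f)).vec_le ξ (c := ‖f‖ * ε) (by positivity) ?_
  · exact h1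
  filter_upwards [he.mem] with w hw
  have b0 : ∀ g, ‖H859.CL.cfc G1 G2 bp f g - cfr G1 G2 bp r f g‖ ≤ ‖f‖ := by
    intro g
    by_cases h1 : G2 g ≤ r
    · rw [cfr, ind_pos (P := fun g => G2 g ≤ r) h1]
      simp
    · rw [cfr, ind_neg (P := fun g => G2 g ≤ r) h1]
      simpa using cbd f g
  have b2 : ∀ g, ‖(-1) * cfr G1 G2 bp r f g‖ ≤ ‖f‖ := fun g => by
    rw [norm_mul, norm_neg, norm_one, one_mul]; exact crd r f g
  have e1 : PC mp R w (H859.CL.cfc G1 G2 bp f) - PC mp R w (cfr G1 G2 bp r f) =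
      PC mp R w (fun g => H859.CL.cfc G1 G2 bp f g - cfr G1 G2 bp r f g) := by
    have e2 : (fun g => H859.CL.cfc G1 G2 bp f g - cfr G1 G2 bp r f g) =
        fun g => H859.CL.cfc G1 G2 bp f g + (-1) * cfr G1 G2 bp r f g := by funext g; ring
    rw [e2, PC_add h.fn (fun g => cbd f g) b2, PC_smul h.fn _ (fun g => crd r f g)]
    rw [neg_one_smul, sub_eq_add_neg]
  rw [e1, PC_ap]
  refine (h.sys.rep.norm_le _ _).trans ?_
  rw [H859.CN.mc_cut h.fn b0 (fun g hg => sub_cfr f hg), mul_ap']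
  refine (mc_norm h.fn (norm_nonneg _) b0 _).trans (mul_le_mul_of_nonneg_left ?_ (norm_nonneg _))
  exact (h.sys.prj.mono (BB_mono hr) _).trans (hr0 w hw)

/-- The cut-off maps commute with the coefficients. -/
theorem IsUr.cm [l.NeBot] (hE : IsUr mp R G1 G2 bp r l Er)
    (h : H859.CN.SysF mp R Bd ms A Br G1 G2) (hL : Leg mp R lam W) {a : K →L[ℂ] K} (ha : a ∈ W)
    (f : C(Y, ℂ)) : a * Er f = Er f * a := by
  refine (hE f).comm fun ξ η => ?_
  have h1 : ∀ w, (a * PC mp R w (cfr G1 G2 bp r f) - PC mp R w (cfr G1 G2 bp r f) * a) = 0 :=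
    fun w => by rw [PC_W hL h.fn h.sys.rep ha (fun g => crd r f g) w, sub_self]
  simp only [h1, zero_apply, inner_zero_right]
  exact tendsto_const_nhds

/-- The cut-off maps commute with the contracted elements. -/
theorem IsUr.contr [l.NeBot] [TopologicalSpace D] (hE : IsUr mp R G1 G2 bp r l Er)
    (h : H859.CN.SysF mp R Bd ms A Br G1 G2) (hS : Slow mp R Bd) {n : D}
    (hn : Tendsto (fun w => w * n * w⁻¹) l (𝓝 1)) (f : C(Y, ℂ)) : R n * Er f = Er f * R n := by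
  refine (hE f).comm fun ξ η => ?_
  have h1 := (H859.CN.asy_slow h hS hn (F := cfr G1 G2 bp r f) (fun g => crd r f g) ξ).neg
  rw [neg_zero] at h1
  have h2 := (tendsto_const_nhds (x := η)).inner (𝕜 := ℂ) h1
  rw [inner_zero_right] at h2
  refine h2.congr fun w => ?_
  rw [← ContinuousLinearMap.neg_apply, neg_sub]

variable [MulAction Γ Y]

/-- **Domination by the cut-offs**, after an arbitrary `R v`. -/
theorem IsU.dom [l.NeBot] (hE : IsU mp R G1 G2 bp l E)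
    (h : H859.CN.SysF mp R Bd ms A Br G1 G2) (h1 : R 1 = 1) (hloc : Loc2 mp R Bd Bf)
    (hG : GeoU G1 G2 bp) (he : Esc (st mp) R Bd A l) {NA : ℝ → ℝ → Set Y → Set Γ}
    (hcut : H859.CN.DomCut NA G1 G2 bp) (v : D) (u : C(Y, ℂ)) (A0 : Set Y) (hu : tsupport u ⊆ A0)
    (ζ : K) {ε : ℝ} (hε : 0 < ε) :
    ∃ Rr : ℝ, ∀ T > 0, ∀ᶠ w in l,
      ‖E u ζ‖ ≤ ‖u‖ * ‖st mp (NA Rr T A0) (R v (R w ζ))‖ + ε := by
  have hprj : Prj (st mp) := h.sys.prj
  have hgap : ∀ u : Γ, ∃ C, ∀ x, |G1 (x * u) - G1 x| ≤ C ∧ |G2 (x * u) - G2 x| ≤ C := fun u => by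
    obtain ⟨C, hC⟩ := hG.gap 1 u
    exact ⟨C, fun x => by simpa using hC x⟩
  obtain ⟨X, hX⟩ : ∃ X : Γ → ℂ, X = H859.CL.cfc G1 G2 bp u := ⟨_, rfl⟩
  have hXn : ∀ g, ‖X g‖ ≤ ‖u‖ := fun g => by
    rw [hX]; exact cbd u g
  have hiso : ∀ (v : D) (x : K), ‖R v x‖ = ‖x‖ := by
    intro v x
    have h2 := h.sys.rep.norm_eq v x
    rw [h1] at h2
    exact h2
  have hsq := norm_shift h hloc hG he u v ζ
  rw [← hX] at hsq
  obtain ⟨r, hr⟩ := H859.CN.ngl_shift h.sys hG.fin he hloc.sub hloc.dense hloc.map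
    (fun v => loc_at hloc v) hgap v ζ (ε := ε / (4 * (‖u‖ + 1))) (by positivity)
  obtain ⟨Rr, hR⟩ := hcut r
  refine ⟨Rr, fun T hT => ?_⟩
  obtain ⟨T', hT'⟩ := hR T hT
  have hlim := hE.tend_sq h.fn h.sys.rep u ζ
  rw [← hX] at hlim
  have hle := hE.sq_le h.fn h.sys.rep u ζ
  filter_upwards [hr T', (Metric.tendsto_nhds.mp hsq) ((ε / 4) ^ 2) (by positivity),
    (Metric.tendsto_nhds.mp hlim) ((ε / 4) ^ 2) (by positivity)] with w n1 n2 n3
  rw [dist_zero_right, Real.norm_eq_abs] at n2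
  rw [Real.dist_eq] at n3
  obtain ⟨x, hx⟩ : ∃ x, x = R v (R w ζ) := ⟨_, rfl⟩
  rw [← hx] at n1 n2 ⊢
  have s4 : ‖E u ζ‖ ≤ ‖mc mp X x‖ + ε / 2 := by
    refine abs_le_of_sq_le_sq' ?_ (by positivity) |>.2
    have h5 := (abs_lt.1 n2).1
    have h6 := (abs_lt.1 n3).1
    have h7 := norm_nonneg (mc mp X x)
    nlinarith
  have s5 : ‖mc mp X x‖ ≤ ‖u‖ * ‖st mp (cn G1 G2 bp A0) x‖ := by
    have h5 : ∀ y, X y ≠ 0 → y ∈ cn G1 G2 bp A0 := by
      intro y hy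
      rw [hX, H859.CL.cfc] at hy
      refine ⟨?_, ?_⟩
      · by_contra h6
        rw [ind_neg (P := fun g => G2 g ≤ G1 g) h6, Complex.ofReal_zero, zero_mul] at hy
        exact hy rfl
      · refine hu (subset_tsupport _ ?_)
        intro h6
        rw [h6, mul_zero] at hy
        exact hy rfl
    rw [H859.CN.mc_cut h.fn hXn h5]
    exact mc_norm h.fn (norm_nonneg _) hXn _
  have s6 : ‖st mp (cn G1 G2 bp A0) x‖ ≤ ‖st mp (NA Rr T A0) x‖ + ε / (4 * (‖u‖ + 1)) := by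
    refine (hprj.mono (hT' A0) x).trans ?_
    refine (hprj.norm_union_le _ _ x).trans ?_
    exact add_le_add_right n1 _
  have s7 : ‖u‖ * (ε / (4 * (‖u‖ + 1))) ≤ ε / 4 := by
    rw [mul_div_assoc', div_le_div_iff₀ (by positivity) (by norm_num)]
    have := norm_nonneg u
    nlinarith
  have s8 := mul_le_mul_of_nonneg_left s6 (norm_nonneg u)
  rw [mul_add] at s8
  linarith

end lim

end Vale.Agent.P092.H486.Eng
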