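import Vale.Agent.P092.H486.EngC

/-!
P092 (helper486), Team P, block [P-ENG], part 4: the family of completely positive maps over a
homogeneous space `Z = E / P_b` of the source group, along one ultrafilter of times.
-/

set_option linter.all false

open scoped InnerProductSpace Pointwise
open Filter Topology ContinuousLinearMap TopologicalSpace

namespace Vale.Agent.P092.H486.Eng

open Vale.Agent.P092.H859.CL
open Vale.Agent.P092.H553 (ind ind_nonneg ind_le_one abs_ind_le ind_pos ind_neg)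
open Vale.Agent.P092.H43 (Loc2 loc_at)
open Vale.Agent.P092.RC (Pic Moore Cm)

/-- The family of limit maps `F z` (positive, not yet multiplicative). -/
structure FamU {E Γ Y Z K : Type} [Group E] [Group Γ] [MulAction E Z] [TopologicalSpace Y]
    [CompactSpace Y] [SMul Γ Y] [NormedAddCommGroup K] [InnerProductSpace ℂ K]
    [CompleteSpace K] (b : E) (π : E →* (K →L[ℂ] K)) (lam : Γ →* (K →L[ℂ] K))
    (W : Set (K →L[ℂ] K)) (m : Set Γ → (K →L[ℂ] K)) (NA : ℝ → ℝ → Set Y → Set Γ) (z0 : Z)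
    (𝒰 : Filter ℕ) (F : Z → (C(Y, ℂ) →ₗ[ℂ] (K →L[ℂ] K))) : Prop where
  nrm : ∀ z f, ‖F z f‖ ≤ ‖f‖
  star : ∀ z f, F z (star f) = adjoint (F z f)
  bes : ∀ z {J : Type} (s : Finset J) (v : J → C(Y, ℂ)) (ξ : K),
    ∑ j ∈ s, ‖F z (v j) ξ‖ ^ 2 ≤ (⟪ξ, F z (∑ j ∈ s, Star.star (v j) * v j) ξ⟫_ℂ).re
  cm : ∀ z f, Cm W (F z f)
  cov : ∀ γ z (f f' : C(Y, ℂ)), (∀ y, f' (γ • y) = f y) → lam γ * F z f * lam γ⁻¹ = F z f'
  pcov : ∀ g z f, π g * F z f * π g⁻¹ = F (g • z) f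
  dom : ∀ (g : E) (u : C(Y, ℂ)) (A : Set Y), tsupport u ⊆ A → ∀ ζ : K, ∀ ε > 0,
    ∃ R : ℝ, ∀ T > 0, ∀ᶠ N : ℕ in 𝒰,
      ‖F (g • z0) u ζ‖ ≤ ‖u‖ * ‖m (NA R T A) (π (g * b ^ N * g⁻¹)⁻¹ ζ)‖ + ε

/-- conjugation of a linear map by a unitary representation -/
noncomputable def cl {E Y K : Type} [Group E] [TopologicalSpace Y] [CompactSpace Y]
    [NormedAddCommGroup K] [InnerProductSpace ℂ K] [CompleteSpace K] (π : E →* (K →L[ℂ] K)) (g : E)
    (F : C(Y, ℂ) →ₗ[ℂ] (K →L[ℂ] K)) : C(Y, ℂ) →ₗ[ℂ] (K →L[ℂ] K) where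
  toFun f := π g * F f * π g⁻¹
  map_add' f h := by rw [map_add, mul_add, add_mul]
  map_smul' c f := by
    rw [map_smul, mul_smul_comm, smul_mul_assoc]; rfl

section fam

variable {E Γ Y Z K : Type} [Group E] [Group Γ] [MulAction E Z] [TopologicalSpace Y]
  [CompactSpace Y] [MulAction Γ Y] [NormedAddCommGroup K] [InnerProductSpace ℂ K]
  [CompleteSpace K] {b : E} {π : E →* (K →L[ℂ] K)} {lam : Γ →* (K →L[ℂ] K)}
  {W : Set (K →L[ℂ] K)} {Ω : K}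
  {mp : (Γ → ℝ) → (K →L[ℂ] K)} {NA : ℝ → ℝ → Set Y → Set Γ} {z0 : Z} {Br : ℝ → Set Γ}
  {G1 G2 : Γ → ℝ} {bp : Γ → Y} {Bd Bf : Set K} {ms : E → Set Γ → ℝ} {A : Subgroup E}
  {𝒰 : Ultrafilter ℕ} {F : C(Y, ℂ) →ₗ[ℂ] (K →L[ℂ] K)}

theorem cl_apply (g : E) (F : C(Y, ℂ) →ₗ[ℂ] (K →L[ℂ] K)) (f : C(Y, ℂ)) :
    cl π g F f = π g * F f * π g⁻¹ := rfl

/-- the ultrafilter of the times, in the group -/
def ut (b : E) (𝒰 : Ultrafilter ℕ) : Ultrafilter E := 𝒰.map fun N : ℕ => b⁻¹ ^ N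

theorem ut_le (b : E) (h𝒰 : (𝒰 : Filter ℕ) ≤ atTop) : (ut b 𝒰 : Filter E) ≤ pw b⁻¹ := by
  rw [ut, Ultrafilter.coe_map]
  exact Filter.map_mono h𝒰

/-- the unique `z`-independent mass -/
theorem FamU.mass [TopologicalSpace E] {F : Z → (C(Y, ℂ) →ₗ[ℂ] (K →L[ℂ] K))} (hP : Pic π lam W Ω)
    (h : FamU b π lam W (st mp) NA z0 (𝒰 : Filter ℕ) F) (htr : ∀ z : Z, ∃ g : E, g • z0 = z)
    (hmo : Moore {g : E | g • z0 = z0}) : ∃ p : ℝ, 0 ≤ p ∧ p ≤ 1 ∧ ∀ z, F z 1 = (p : ℂ) • 1 := by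
  have hinv : ∀ g : E, π g * π g⁻¹ = 1 := fun g => by rw [← map_mul, mul_inv_cancel, map_one]
  have hinv' : ∀ g : E, π g⁻¹ * π g = 1 := fun g => by rw [← map_mul, inv_mul_cancel, map_one]
  have hlinv' : ∀ γ : Γ, lam γ⁻¹ * lam γ = 1 := fun g => by
    rw [← map_mul, inv_mul_cancel, map_one]
  obtain ⟨c, hc⟩ := hP.erg _ hmo (F z0 1) (h.cm z0 1) (fun γ => by
    have h1 := h.cov γ z0 1 1 (fun y => rfl)
    calc F z0 1 * lam γ = (lam γ * F z0 1 * lam γ⁻¹) * lam γ := by rw [h1]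
      _ = lam γ * F z0 1 * (lam γ⁻¹ * lam γ) := by simp only [mul_assoc]
      _ = _ := by rw [hlinv', mul_one]) (fun g hg => by
    have h1 := h.pcov g z0 1
    rw [show g • z0 = z0 from hg] at h1
    calc F z0 1 * π g = (π g * F z0 1 * π g⁻¹) * π g := by rw [h1]
      _ = π g * F z0 1 * (π g⁻¹ * π g) := by simp only [mul_assoc]
      _ = _ := by rw [hinv', mul_one])
  -- the scalar is real, between zero and one
  have hnΩ : ⟪Ω, Ω⟫_ℂ = 1 := by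
    rw [inner_self_eq_norm_sq_to_K, hP.nΩ]; simp
  have hcΩ : ⟪Ω, F z0 1 Ω⟫_ℂ = c := by
    rw [hc]
    change ⟪Ω, c • Ω⟫_ℂ = c
    rw [inner_smul_right, hnΩ, mul_one]
  have him : c.im = 0 := by
    have h1 := h.star z0 1
    rw [star_one] at h1
    have h2 : ⟪Ω, F z0 1 Ω⟫_ℂ = (starRingEnd ℂ) ⟪Ω, F z0 1 Ω⟫_ℂ := by
      rw [inner_conj_symm]
      conv_lhs => rw [h1]
      rw [adjoint_inner_right]
    rw [hcΩ] at h2
    exact Complex.conj_eq_iff_im.mp h2.symm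
  have hre0 : 0 ≤ c.re := by
    have h1 := h.bes z0 (Finset.univ : Finset Unit) (fun _ => 1) Ω
    simp only [Finset.univ_unique, Finset.sum_singleton, star_one, one_mul] at h1
    rw [hcΩ] at h1
    exact (by positivity : (0 : ℝ) ≤ ‖F z0 1 Ω‖ ^ 2).trans h1
  have hre1 : c.re ≤ 1 := by
    have h1 := h.nrm z0 1
    have h2 : ‖F z0 1 Ω‖ ≤ 1 := by
      refine ((F z0 1).le_opNorm Ω).trans ?_
      rw [hP.nΩ, mul_one]
      exact h1.trans ((ContinuousMap.norm_le _ zero_le_one).2 fun y => by simp)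
    have h3 : c.re ≤ ‖⟪Ω, F z0 1 Ω⟫_ℂ‖ := by rw [hcΩ]; exact Complex.re_le_norm c
    refine h3.trans ((norm_inner_le_norm _ _).trans ?_)
    rw [hP.nΩ, one_mul]; exact h2
  refine ⟨c.re, hre0, hre1, fun z => ?_⟩
  have hcr : ((c.re : ℝ) : ℂ) = c := Complex.ext (by simp) (by simp [him])
  obtain ⟨g, rfl⟩ := htr z
  rw [← h.pcov g z0 1, hc, hcr, mul_smul_comm, mul_one, smul_mul_assoc, hinv]

/-- **[P-ENG], one type of wall: the engine gives the family of limit maps.** -/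
theorem famU_eng [TopologicalSpace E] (h𝒰 : (𝒰 : Filter ℕ) ≤ atTop)
    (h : H859.CN.SysF mp (fun g => π g) Bd ms A Br G1 G2)
    (hL : Leg mp (fun g => π g) (fun γ => lam γ) W) (hG : GeoU G1 G2 bp)
    (hS : Slow mp (fun g => π g) Bd) (hloc : Loc2 mp (fun g => π g) Bd Bf)
    (he : Esc (st mp) (fun g => π g) Bd A (pw b⁻¹)) (hcut : H859.CN.DomCut NA G1 G2 bp)
    (htr : ∀ z : Z, ∃ g : E, g • z0 = z)
    (hst : ∀ g : E, g • z0 = z0 → ∃ v n, g = v * n ∧ v * b = b * v ∧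
      Tendsto (fun N : ℕ => (b ^ N)⁻¹ * n * b ^ N) atTop (𝓝 1)) :
    ∃ F : Z → (C(Y, ℂ) →ₗ[ℂ] (K →L[ℂ] K)), FamU b π lam W (st mp) NA z0 (𝒰 : Filter ℕ) F ∧
      IsU mp (fun g => π g) G1 G2 bp (ut b 𝒰 : Filter E) (F z0) := by
  obtain ⟨l, hl⟩ : ∃ l : Ultrafilter E, l = ut b 𝒰 := ⟨_, rfl⟩
  have hle : (l : Filter E) ≤ pw b⁻¹ := by rw [hl]; exact ut_le b h𝒰
  have hf := h.fn
  have hR := h.sys.rep
  have he' : Esc (st mp) (fun g => π g) Bd A (l : Filter E) := he.mono hle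
  obtain ⟨β, hβ⟩ := exists_isU (G1 := G1) (G2 := G2) (bp := bp) hf hR l
  have hpw : ∀ N : ℕ, (b⁻¹ : E) ^ N = (b ^ N)⁻¹ := fun N => inv_pow _ _
  have hadj : ∀ g, adjoint (π g) = π g⁻¹ := h.sys.rep.adj
  -- the stabiliser
  have hpar : ∀ g : E, g • z0 = z0 → ∀ f, π g * β f = β f * π g := by
    intro g hg f
    obtain ⟨v, n, rfl, hv, hn⟩ := hst g hg
    have h1 : π v * β f = β f * π v := by
      refine hβ.cent h hloc hG he' (v := v) ?_ f
      have h3 : ∀ᶠ w in pw b⁻¹, v * w = w * v := by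
        rw [pw, Filter.eventually_map]
        refine Eventually.of_forall fun N => ?_
        have h2 : Commute v b := hv
        exact (h2.inv_right.pow_right N).eq
      exact hle h3
    have h2 : π n * β f = β f * π n := by
      refine hβ.contr h hS (n := n) ?_ f
      have h3 : Tendsto (fun w => w * n * w⁻¹) (pw b⁻¹) (𝓝 1) := by
        rw [tendsto_pw]
        refine hn.congr fun N => ?_
        rw [hpw, inv_inv]
      exact h3.mono_left hle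
    rw [map_mul, mul_assoc, h2, ← mul_assoc, h1, mul_assoc]
  have hinv : ∀ g : E, π g * π g⁻¹ = 1 := fun g => by rw [← map_mul, mul_inv_cancel, map_one]
  have hinv' : ∀ g : E, π g⁻¹ * π g = 1 := fun g => by rw [← map_mul, inv_mul_cancel, map_one]
  have heq : ∀ g g' : E, g • z0 = g' • z0 → cl π g β = cl π g' β := by
    intro g g' hgg
    have h1 : (g'⁻¹ * g) • z0 = z0 := by rw [mul_smul, hgg, inv_smul_smul]
    refine LinearMap.ext fun f => ?_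
    rw [cl_apply, cl_apply]
    have h2 := hpar _ h1 f
    have h3 : π g = π g' * π (g'⁻¹ * g) := by rw [← map_mul, mul_inv_cancel_left]
    have h4 : π g⁻¹ = π (g'⁻¹ * g)⁻¹ * π g'⁻¹ := by
      rw [← map_mul, ← mul_inv_rev, mul_inv_cancel_left]
    calc π g * β f * π g⁻¹ = π g' * (π (g'⁻¹ * g) * β f) * (π (g'⁻¹ * g)⁻¹ * π g'⁻¹) := by
          rw [h4, h3]; simp only [mul_assoc]
      _ = π g' * β f * (π (g'⁻¹ * g) * π (g'⁻¹ * g)⁻¹) * π g'⁻¹ := by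
          rw [h2]; simp only [mul_assoc]
      _ = _ := by rw [hinv, mul_one]
  choose s hs using htr
  have hF : ∀ g : E, cl π (s (g • z0)) β = cl π g β := fun g => heq _ _ (hs _)
  have hiso : ∀ (v : E) (x : K), ‖π v x‖ = ‖x‖ := by
    intro v x
    have h1 := h.sys.rep.norm_eq v x
    change ‖π v x‖ = ‖π 1 x‖ at h1
    rw [h1, map_one]
    rfl
  have hin : ∀ (g : E) (x y : K), ⟪x, π g y⟫_ℂ = ⟪π g⁻¹ x, y⟫_ℂ := fun g x y => by
    rw [← hadj, adjoint_inner_left]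
  refine ⟨fun z => cl π (s z) β, ⟨?_, ?_, ?_, ?_, ?_, ?_, ?_⟩, ?_⟩
  · intro z f
    refine ContinuousLinearMap.opNorm_le_bound _ (norm_nonneg _) fun ξ => ?_
    change ‖π (s z) (β f (π (s z)⁻¹ ξ))‖ ≤ _
    rw [hiso]
    refine ((β f).le_opNorm _).trans ?_
    rw [hiso]
    exact mul_le_mul_of_nonneg_right (hβ.norm hf hR f) (norm_nonneg _)
  · intro z f
    rw [cl_apply, cl_apply, hβ.star hf hR, ← star_eq_adjoint, ← star_eq_adjoint, star_mul,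
      star_mul]
    have h1 : star (π (s z)⁻¹) = π (s z) := by
      rw [star_eq_adjoint, hadj, inv_inv]
    have h2 : star (π (s z)) = π (s z)⁻¹ := by rw [star_eq_adjoint, hadj]
    rw [h1, h2, mul_assoc]
  · intro z J t v ξ
    have h1 := hβ.bes hf hR t v (π (s z)⁻¹ ξ)
    have e1 : ∀ j, ‖cl π (s z) β (v j) ξ‖ = ‖β (v j) (π (s z)⁻¹ ξ)‖ := fun j => hiso _ _
    have e2 : ⟪ξ, cl π (s z) β (∑ j ∈ t, Star.star (v j) * v j) ξ⟫_ℂ =
        ⟪π (s z)⁻¹ ξ, β (∑ j ∈ t, Star.star (v j) * v j) (π (s z)⁻¹ ξ)⟫_ℂ := hin _ _ _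
    simp only [e1]
    rw [e2]
    exact h1
  · intro z f x hx
    obtain ⟨g, hg⟩ : ∃ g, g = s z := ⟨_, rfl⟩
    rw [← hg, cl_apply]
    have h1 : π g⁻¹ * x * π g ∈ W := by
      have := hL.WP x hx g⁻¹
      simpa only [inv_inv] using this
    have h2 : β f * (π g⁻¹ * x * π g) = (π g⁻¹ * x * π g) * β f := (hβ.cm h hL h1 f).symm
    calc π g * β f * π g⁻¹ * x = π g * (β f * (π g⁻¹ * x * π g)) * π g⁻¹ := by
          have e : x = x * (π g * π g⁻¹) := by rw [hinv, mul_one]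
          conv_lhs => rw [e]
          simp only [mul_assoc]
      _ = π g * ((π g⁻¹ * x * π g) * β f) * π g⁻¹ := by rw [h2]
      _ = (π g * π g⁻¹) * x * (π g * β f * π g⁻¹) := by simp only [mul_assoc]
      _ = x * (π g * β f * π g⁻¹) := by rw [hinv, one_mul]
  · intro γ z f f' hff
    obtain ⟨g, hg⟩ : ∃ g, g = s z := ⟨_, rfl⟩
    rw [← hg, cl_apply, cl_apply, ← hβ.cov h hG hL he' γ hff]
    have h1 := hL.comm g γ
    have h2 := hL.comm g⁻¹ γ⁻¹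
    calc lam γ * (π g * β f * π g⁻¹) * lam γ⁻¹ = (lam γ * π g) * β f * (π g⁻¹ * lam γ⁻¹) := by
          simp only [mul_assoc]
      _ = (π g * lam γ) * β f * (lam γ⁻¹ * π g⁻¹) := by rw [← h1, h2]
      _ = _ := by simp only [mul_assoc]
  · intro v z f
    obtain ⟨g, hg⟩ : ∃ g, g = s z := ⟨_, rfl⟩
    have h1 : z = g • z0 := by rw [hg, hs]
    rw [← hg, h1, ← mul_smul, hF, cl_apply, cl_apply, mul_inv_rev, map_mul, map_mul]
    simp only [mul_assoc]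
  · intro g u A0 hu ζ ε hε
    change ∃ R : ℝ, ∀ T > 0, ∀ᶠ N : ℕ in (𝒰 : Filter ℕ), ‖cl π (s (g • z0)) β u ζ‖ ≤ _
    rw [hF]
    obtain ⟨Rr, hRr⟩ := hβ.dom h hL.one hloc hG he' hcut g u A0 hu (π g⁻¹ ζ) hε
    refine ⟨Rr, fun T hT => ?_⟩
    have h1 := hRr T hT
    rw [hl, ut, Ultrafilter.coe_map, Filter.eventually_map] at h1
    filter_upwards [h1] with N hN
    have e0 : π (g * b ^ N * g⁻¹)⁻¹ ζ = π g (π (b⁻¹ ^ N) (π g⁻¹ ζ)) := by
      have : (g * b ^ N * g⁻¹)⁻¹ = g * (b⁻¹ ^ N * g⁻¹) := by rw [hpw]; group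
      rw [this, map_mul, map_mul]
      rfl
    rw [e0]
    have e1 : ‖cl π g β u ζ‖ = ‖β u (π g⁻¹ ζ)‖ := hiso g _
    rw [e1]
    exact hN
  · have h1 : cl π (s z0) β = β := by
      have h2 := hF 1
      rw [one_smul] at h2
      rw [h2]
      refine LinearMap.ext fun f => ?_
      rw [cl_apply, map_one, one_mul, inv_one, map_one, mul_one]
    change IsU mp (fun g => π g) G1 G2 bp (ut b 𝒰 : Filter E) (cl π (s z0) β)
    rw [h1, ← hl]
    exact hβ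

end fam

end Vale.Agent.P092.H486.Eng
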