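import Vale.Agent.P092.H486.EngD
import Vale.Agent.P092.H494.PI1
import Vale.Agent.P092.SP.UL

/-!
P092 (helper486), Team P, block [P-ENG], part 5: exact incidence (I1) of the limit maps of two types
of walls, from one finite count (bounded overlap); glue for helper494's [P-I1].
-/

set_option linter.all false

open scoped InnerProductSpace Pointwise ENNReal
open Filter Topology ContinuousLinearMap TopologicalSpace

namespace Vale.Agent.P092.H486.Eng

open Vale.Agent.P092.H859.CL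
open Vale.Agent.P092.H553 (ind ind_nonneg ind_le_one abs_ind_le ind_pos ind_neg)
open Vale.Agent.P092.H43 (Loc2 loc_at)
open Vale.Agent.P092.RC (Pic Moore Cm TRN)
open Vale.Agent.P092.SD (Ms)

/-- Bounded overlap of the cones over `A` (first type) and over `B` (second type). -/
def Ovl {Γ Y Y' : Type} [Group Γ] (G1 G2 : Γ → ℝ) (bp : Γ → Y) (H1 H2 : Γ → ℝ) (bp' : Γ → Y')
    (A : Set Y) (B : Set Y') : Prop :=
  ∀ r : ℝ, ∃ (T : ℝ) (N : ℕ), ∀ ζ : Γ, ∀ S : Finset Γ,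
    (∀ γ ∈ S, (T ≤ G1 γ ∧ G2 γ ≤ r ∧ bp γ ∈ A) ∧
      (T ≤ H1 (γ * ζ) ∧ H2 (γ * ζ) ≤ r ∧ bp' (γ * ζ) ∈ B)) → S.card ≤ N

section ovl

variable {Γ Y Y' : Type} [Group Γ] {G1 G2 H1 H2 : Γ → ℝ} {bp : Γ → Y} {bp' : Γ → Y'}
  {A : Set Y} {B : Set Y'}

/-- The count for the cut-off functions. -/
theorem Ovl.cut (h : Ovl G1 G2 bp H1 H2 bp' A B) (hG : ∀ r, (FF G1 G2 r).Finite)
    (hH : ∀ r, (FF H1 H2 r).Finite) (r : ℝ) {u : Y → ℂ} {v : Y' → ℂ}
    (hu : ∀ y, u y ≠ 0 → y ∈ A) (hv : ∀ y, v y ≠ 0 → y ∈ B) :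
    ∃ N : ℕ, ∀ ζ : Γ, ∀ S : Finset Γ,
      (∀ γ ∈ S, cfr G1 G2 bp r u γ ≠ 0 ∧ cfr H1 H2 bp' r v (γ * ζ) ≠ 0) → S.card ≤ N := by
  classical
  obtain ⟨T, N, hN⟩ := h r
  obtain ⟨F0, hF0⟩ : ∃ F0 : Finset Γ, F0 = (hG (max T r)).toFinset := ⟨_, rfl⟩
  obtain ⟨F1, hF1⟩ : ∃ F1 : Finset Γ, F1 = (hH (max T r)).toFinset := ⟨_, rfl⟩
  refine ⟨N + F0.card + F1.card, fun ζ S hS => ?_⟩
  obtain ⟨S0, hS0⟩ : ∃ S0 : Finset Γ, S0 = S.filter fun γ => T ≤ G1 γ ∧ T ≤ H1 (γ * ζ) := ⟨_, rfl⟩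
  have h1 : S0.card ≤ N := by
    refine hN ζ S0 fun γ hγ => ?_
    rw [hS0, Finset.mem_filter] at hγ
    obtain ⟨h2, h3, h4⟩ := hγ
    obtain ⟨a1, a2⟩ := hS γ h2
    obtain ⟨b1, b2, b3⟩ := cfr_supp a1
    obtain ⟨c1, c2, c3⟩ := cfr_supp a2
    exact ⟨⟨h3, b1, hu _ b3⟩, h4, c1, hv _ c3⟩
  have h2 : S ⊆ S0 ∪ F0 ∪ F1.image (fun x => x * ζ⁻¹) := by
    intro γ hγ
    obtain ⟨a1, a2⟩ := hS γ hγ
    obtain ⟨b1, b2, b3⟩ := cfr_supp a1
    obtain ⟨c1, c2, c3⟩ := cfr_supp a2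
    rw [Finset.mem_union, Finset.mem_union]
    by_cases h3 : T ≤ G1 γ
    · by_cases h4 : T ≤ H1 (γ * ζ)
      · left; left
        rw [hS0, Finset.mem_filter]
        exact ⟨hγ, h3, h4⟩
      · right
        push Not at h4
        rw [Finset.mem_image]
        refine ⟨γ * ζ, ?_, by group⟩
        rw [hF1, Set.Finite.mem_toFinset]
        exact ⟨h4.le.trans (le_max_left _ _), c1.trans (le_max_right _ _)⟩
    · left; right
      push Not at h3
      rw [hF0, Set.Finite.mem_toFinset]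
      exact ⟨h3.le.trans (le_max_left _ _), b1.trans (le_max_right _ _)⟩
  calc S.card ≤ (S0 ∪ F0 ∪ F1.image (fun x => x * ζ⁻¹)).card := Finset.card_le_card h2
    _ ≤ (S0 ∪ F0).card + (F1.image (fun x => x * ζ⁻¹)).card := Finset.card_union_le _ _
    _ ≤ (S0.card + F0.card) + F1.card :=
        add_le_add (Finset.card_union_le _ _) Finset.card_image_le
    _ ≤ _ := by omega

theorem Ovl.mono {A' : Set Y} {B' : Set Y'} (h : Ovl G1 G2 bp H1 H2 bp' A B) (hA : A' ⊆ A)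
    (hB : B' ⊆ B) : Ovl G1 G2 bp H1 H2 bp' A' B' := by
  intro r
  obtain ⟨T, N, hN⟩ := h r
  refine ⟨T, N, fun ζ S hS => hN ζ S fun γ hγ => ?_⟩
  obtain ⟨⟨a1, a2, a3⟩, b1, b2, b3⟩ := hS γ hγ
  exact ⟨⟨a1, a2, hA a3⟩, b1, b2, hB b3⟩

end ovl

section inc

variable {E Γ Y Y' K : Type} [Group E] [TopologicalSpace E] [Group Γ] [TopologicalSpace Y]
  [CompactSpace Y] [TopologicalSpace Y'] [CompactSpace Y'] [NormedAddCommGroup K]
  [InnerProductSpace ℂ K] [CompleteSpace K] {π : E →* (K →L[ℂ] K)} {lam : Γ →* (K →L[ℂ] K)}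
  {W : Set (K →L[ℂ] K)} {Ω : K} {mp : (Γ → ℝ) → (K →L[ℂ] K)} {Bd Bd' : Set K}
  {G1 G2 H1 H2 : Γ → ℝ} {bp : Γ → Y} {bp' : Γ → Y'} {Br Br' : ℝ → Set Γ}
  {ms ms' : E → Set Γ → ℝ} {A A' : Subgroup E} {r : ℝ}
  {P Pr : C(Y, ℂ) →ₗ[ℂ] (K →L[ℂ] K)} {Q Qr : C(Y', ℂ) →ₗ[ℂ] (K →L[ℂ] K)}

/-- Multiplication operators are diagonal. -/
theorem dg_mc (hf : Fn mp) {F : Γ → ℂ} {C : ℝ} (hF : ∀ g, ‖F g‖ ≤ C) :
    H494.PI.Dg (st mp) F (mc mp F) := by
  intro γ
  have h1 : st mp {γ} = mc mp (fun g => ((ind (fun g => g ∈ ({γ} : Set Γ)) g : ℝ) : ℂ)) := by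
    rw [mc_real hf]; rfl
  have b1 : ∀ g, ‖((ind (fun g => g ∈ ({γ} : Set Γ)) g : ℝ) : ℂ)‖ ≤ 1 := fun g => by
    rw [Complex.norm_real, Real.norm_eq_abs]; exact abs_ind_le _ g
  rw [h1, ← mc_mul hf b1 hF, ← mc_smul hf (F γ) b1]
  congr 1
  funext g
  by_cases h2 : g = γ
  · rw [h2]; ring
  · rw [ind_neg (P := fun g => g ∈ ({γ} : Set Γ)) (by simpa using h2)]
    simp

/-- **(I1) for the cut-off maps.** -/
theorem inc_cut (hP : Pic π lam W Ω) (hM : Ms lam W Ω (st mp)) (hf : Fn mp)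
    (hR : Rep fun g => π g) (hL : Leg mp (fun g => π g) (fun γ => lam γ) W) {l l' : Filter E}
    [l.NeBot] [l'.NeBot] (hPr : IsUr mp (fun g => π g) G1 G2 bp r l Pr)
    (hQr : IsUr mp (fun g => π g) H1 H2 bp' r l' Qr) {S : Set E} (hS : Moore S)
    (hPS : ∀ g ∈ S, ∀ f, Pr f * π g = π g * Pr f) (hQS : ∀ g ∈ S, ∀ f, Qr f * π g = π g * Qr f)
    (u : C(Y, ℂ)) (v : C(Y', ℂ)) {N : ℕ}
    (hN : ∀ ζ : Γ, ∀ S : Finset Γ,
      (∀ γ ∈ S, cfr G1 G2 bp r u γ ≠ 0 ∧ cfr H1 H2 bp' r v (γ * ζ) ≠ 0) → S.card ≤ N) :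
    Qr (star v * v) * Pr (star u * u) = 0 := by
  have hc : ∀ {F : Γ → ℂ} {C : ℝ}, (∀ g, ‖F g‖ ≤ C) → Cm W (mc mp F) := by
    intro F C hF w hw
    exact (hL.WmC hf hw hF).symm
  have hcp : ∀ {F : Γ → ℂ} {C : ℝ}, (∀ g, ‖F g‖ ≤ C) → ∀ w : E,
      Cm W (PC mp (fun g => π g) w F) := by
    intro F C hF w x hx
    exact (PC_W hL hf hR hx hF w).symm
  have hsq : ∀ {F : Γ → ℂ} {C : ℝ}, (∀ g, ‖F g‖ ≤ C) → ∀ w : E,
      adjoint (PC mp (fun g => π g) w F) * PC mp (fun g => π g) w F =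
        PC mp (fun g => π g) w (fun g => (starRingEnd ℂ) (F g) * F g) := by
    intro F C hF w
    rw [PC_adj hf hR hF, ← PC_mul hf hR hL.one (fun g => by rw [RCLike.norm_conj]; exact hF g) hF]
  refine H494.PI.i1_zero (l := l') (l' := l) hP
    (a := fun w => PC mp (fun g => π g) w (cfr H1 H2 bp' r v))
    (b := fun w => PC mp (fun g => π g) w (cfr G1 G2 bp r u))
    (fun w => hcp (fun g => crd r v g) w) (fun w => hcp (fun g => crd r u g) w) ?_ ?_
    (N := N * ENNReal.ofReal (‖u‖ ^ 2 * ‖v‖ ^ 2)) ?_ ?_ hS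
    (fun g hg => hQS g hg _) (fun g hg => hPS g hg _)
  · intro ξ η
    refine (hQr (star v * v) ξ η).congr fun w => ?_
    rw [cfr_mul_self]
    dsimp only
    rw [hsq (F := cfr H1 H2 bp' r v) (fun g => crd r v g)]
  · intro ξ η
    refine (hPr (star u * u) ξ η).congr fun w => ?_
    rw [cfr_mul_self]
    dsimp only
    rw [hsq (F := cfr G1 G2 bp r u) (fun g => crd r u g)]
  · exact ENNReal.mul_lt_top (ENNReal.natCast_lt_top N) ENNReal.ofReal_lt_top
  · refine Frequently.of_forall fun y => Frequently.of_forall fun x => ?_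
    exact H494.PI.trn_dg hP.adjP hP.adjL hP.comm hP.Wadj hP.WP hP.nΩ hP.tr_conj hM
      (dg_mc hf fun g => crd r v g) (dg_mc hf fun g => crd r u g) (hc fun g => crd r v g)
      (hc fun g => crd r u g)
      (H494.PI.count_le (norm_nonneg v) (norm_nonneg u) (fun g => crd r v g)
        (fun g => crd r u g) hN) x y

/-- Products of weakly limiting positive maps which vanish on squares. -/
theorem zero_of_sq (hPs : ∀ f, P (star f) = adjoint (P f)) (hQs : ∀ f, Q (star f) = adjoint (Q f))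
    (hPb : ∀ f ξ, ‖P f ξ‖ ^ 2 ≤ (⟪ξ, P (star f * f) ξ⟫_ℂ).re)
    (hQb : ∀ f ξ, ‖Q f ξ‖ ^ 2 ≤ (⟪ξ, Q (star f * f) ξ⟫_ℂ).re) {u : C(Y, ℂ)} {v : C(Y', ℂ)}
    (h : Q (star v * v) * P (star u * u) = 0) :
    Q v * P (star u) = 0 := by
  -- `Q v * P (u* u) = 0`
  have h1 : Q v * P (star u * u) = 0 := by
    ext ξ
    have h2 := hQb v (P (star u * u) ξ)
    have h3 : Q (star v * v) (P (star u * u) ξ) = 0 := congrArg (fun T : K →L[ℂ] K => T ξ) h
    rw [h3, inner_zero_right, Complex.zero_re] at h2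
    have h4 : ‖Q v (P (star u * u) ξ)‖ = 0 := by
      have := norm_nonneg (Q v (P (star u * u) ξ))
      nlinarith
    exact norm_eq_zero.1 h4
  -- adjoint: `P (u* u) * Q (v*) = 0`
  have h2 : P (star u * u) * Q (star v) = 0 := by
    have h3 := congrArg adjoint h1
    rw [map_zero] at h3
    rw [← h3]
    have h4 : adjoint (Q v * P (star u * u)) = adjoint (P (star u * u)) * adjoint (Q v) := by
      rw [← star_eq_adjoint, ← star_eq_adjoint, ← star_eq_adjoint, star_mul]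
    rw [h4, ← hPs, ← hQs, star_mul, star_star]
  have h3 : P u * Q (star v) = 0 := by
    ext ξ
    have h4 := hPb u (Q (star v) ξ)
    have h5 : P (star u * u) (Q (star v) ξ) = 0 := congrArg (fun T : K →L[ℂ] K => T ξ) h2
    rw [h5, inner_zero_right, Complex.zero_re] at h4
    have h6 : ‖P u (Q (star v) ξ)‖ = 0 := by
      have := norm_nonneg (P u (Q (star v) ξ))
      nlinarith
    exact norm_eq_zero.1 h6
  have h4 := congrArg adjoint h3
  rw [map_zero] at h4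
  rw [← h4]
  have h5 : adjoint (P u * Q (star v)) = adjoint (Q (star v)) * adjoint (P u) := by
    rw [← star_eq_adjoint, ← star_eq_adjoint, ← star_eq_adjoint, star_mul]
  rw [h5, ← hPs, ← hQs, star_star]

/-- **(I1)**: exact incidence of the limit maps of two types of walls. -/
theorem inc_lim (hP : Pic π lam W Ω) (hM : Ms lam W Ω (st mp))
    (h : H859.CN.SysF mp (fun g => π g) Bd ms A Br G1 G2)
    (h' : H859.CN.SysF mp (fun g => π g) Bd' ms' A' Br' H1 H2)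
    (hL : Leg mp (fun g => π g) (fun γ => lam γ) W) (hSl : Slow mp (fun g => π g) Bd)
    (hSl' : Slow mp (fun g => π g) Bd') {l l' : Ultrafilter E}
    (he : Esc (st mp) (fun g => π g) Bd A (l : Filter E))
    (he' : Esc (st mp) (fun g => π g) Bd' A' (l' : Filter E))
    (hfG : ∀ r, (FF G1 G2 r).Finite) (hfH : ∀ r, (FF H1 H2 r).Finite)
    (hPl : IsU mp (fun g => π g) G1 G2 bp (l : Filter E) P)
    (hQl : IsU mp (fun g => π g) H1 H2 bp' (l' : Filter E) Q) {S : Set E} (hS : Moore S)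
    (hc : ∀ n ∈ S, Tendsto (fun w => w * n * w⁻¹) (l : Filter E) (𝓝 1))
    (hc' : ∀ n ∈ S, Tendsto (fun w => w * n * w⁻¹) (l' : Filter E) (𝓝 1))
    (u : C(Y, ℂ)) (v : C(Y', ℂ)) (ov : Ovl G1 G2 bp H1 H2 bp' (tsupport u) (tsupport v)) :
    P u * Q v = 0 ∧ Q v * P u = 0 := by
  have hf := h.fn
  have hR := h.sys.rep
  -- squares
  have key : ∀ (u : C(Y, ℂ)) (v : C(Y', ℂ)), Ovl G1 G2 bp H1 H2 bp' (tsupport u) (tsupport v) →
      Q (star v * v) * P (star u * u) = 0 := by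
    intro u v ov
    choose Pn hPn using fun n : ℕ => exists_isUr (G1 := G1) (G2 := G2) (bp := bp) (Y := Y) hf hR l
      (n : ℝ)
    choose Qn hQn using fun n : ℕ => exists_isUr (G1 := H1) (G2 := H2) (bp := bp') (Y := Y') hf hR l'
      (n : ℝ)
    have hz : ∀ n, Qn n (star v * v) * Pn n (star u * u) = 0 := by
      intro n
      obtain ⟨N, hN⟩ := ov.cut hfG hfH (n : ℝ) (u := u) (v := v)
        (fun y hy => subset_tsupport _ hy) (fun y hy => subset_tsupport _ hy)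
      exact inc_cut hP hM hf hR hL (hPn n) (hQn n) hS
        (fun g hg f => ((hPn n).contr h hSl (hc g hg) f).symm)
        (fun g hg f => ((hQn n).contr h' hSl' (hc' g hg) f).symm) u v hN
    have tP : ∀ f ξ, Tendsto (fun n => Pn n f ξ) atTop (𝓝 (P f ξ)) := by
      intro f ξ
      rw [Metric.tendsto_nhds]
      intro ε hε
      obtain ⟨r0, hr0⟩ := cut_close h he hPl ξ (ε := ε / (‖f‖ + 1)) (by positivity)
      filter_upwards [eventually_ge_atTop ⌈r0⌉₊] with n hn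
      have h1 := hr0 n ((Nat.le_ceil r0).trans (by exact_mod_cast hn)) (Pn n) (hPn n) f
      rw [dist_comm, dist_eq_norm]
      refine h1.trans_lt ?_
      rw [mul_div_assoc', div_lt_iff₀ (by positivity)]
      have := norm_nonneg f
      nlinarith
    have tQ : ∀ f ξ, Tendsto (fun n => Qn n f ξ) atTop (𝓝 (Q f ξ)) := by
      intro f ξ
      rw [Metric.tendsto_nhds]
      intro ε hε
      obtain ⟨r0, hr0⟩ := cut_close h' he' hQl ξ (ε := ε / (‖f‖ + 1)) (by positivity)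
      filter_upwards [eventually_ge_atTop ⌈r0⌉₊] with n hn
      have h1 := hr0 n ((Nat.le_ceil r0).trans (by exact_mod_cast hn)) (Qn n) (hQn n) f
      rw [dist_comm, dist_eq_norm]
      refine h1.trans_lt ?_
      rw [mul_div_assoc', div_lt_iff₀ (by positivity)]
      have := norm_nonneg f
      nlinarith
    have nQ : ∀ n f, ‖Qn n f‖ ≤ ‖f‖ := fun n f => (hQn n f).norm_le (norm_nonneg _)
      (Eventually.of_forall fun w => PC_opNorm hf hR (norm_nonneg _) (fun g => crd _ f g) w)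
    ext ξ
    have h1 := tendsto_mul_ap (l := (atTop : Filter ℕ)) (fun n => nQ n (star v * v))
      (tQ (star v * v)) (tP (star u * u)) ξ
    refine tendsto_nhds_unique h1 ?_
    simp only [hz]
    exact tendsto_const_nhds
  have hPs := fun f => hPl.star hf hR f
  have hQs := fun f => hQl.star hf hR f
  have hPb := fun f ξ => hPl.sq_le hf hR f ξ
  have hQb := fun f ξ => hQl.sq_le hf hR f ξ
  have ts : ∀ f : C(Y, ℂ), tsupport (star f : C(Y, ℂ)) ⊆ tsupport f := by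
    intro f
    refine closure_mono fun y hy h0 => hy ?_
    change (starRingEnd ℂ) (f y) = 0
    rw [h0, map_zero]
  have ts' : ∀ f : C(Y', ℂ), tsupport (star f : C(Y', ℂ)) ⊆ tsupport f := by
    intro f
    refine closure_mono fun y hy h0 => hy ?_
    change (starRingEnd ℂ) (f y) = 0
    rw [h0, map_zero]
  have hQP : ∀ (u : C(Y, ℂ)) (v : C(Y', ℂ)), Ovl G1 G2 bp H1 H2 bp' (tsupport u) (tsupport v) →
      Q v * P u = 0 := by
    intro u v ov
    have h1 := zero_of_sq hPs hQs hPb hQb (u := star u) (v := v)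
      (key (star u) v (ov.mono (ts u) subset_rfl))
    rwa [star_star] at h1
  refine ⟨?_, hQP u v ov⟩
  have h1 := congrArg adjoint (hQP (star u) (star v) (ov.mono (ts u) (ts' v)))
  rw [map_zero] at h1
  rw [← h1]
  have h5 : adjoint (Q (star v) * P (star u)) = adjoint (P (star u)) * adjoint (Q (star v)) := by
    rw [← star_eq_adjoint, ← star_eq_adjoint, ← star_eq_adjoint, star_mul]
  rw [h5, ← hPs, ← hQs, star_star, star_star]

end inc

end Vale.Agent.P092.H486.Eng
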