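import Vale.Agent.P092.H486.EngJ
import Vale.Agent.P092.H790.CTA

/-!
P092 (helper486), Team P, Track C (`k = ℂ`), part 1: the trace of a finite sum of products of two
conjugated multiplication operators; small elements of the group almost commute with all
multiplication operators by functions.
-/

set_option linter.all false

open scoped InnerProductSpace Pointwise ENNReal
open Filter Topology ContinuousLinearMap TopologicalSpace MeasureTheory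

namespace Vale.Agent.P092.H486.Rel

open Vale.Agent.P092.H859.CL
open Vale.Agent.P092.H553 (ind ind_nonneg ind_le_one abs_ind_le ind_pos ind_neg)
open Vale.Agent.P092.RC (Pic Moore Cm TRN)
open Vale.Agent.P092.SD (Ms UC)
open Vale.Agent.P092.H494.PI (Dg cm_mul cm_adj cm_conj unitary_norm ms_lam ms_om ms_parseval enorm_sq)
open Vale.Agent.P092.H486.Eng (dg_mc)

section tr

variable {G Γ K : Type} [Group G] [TopologicalSpace G] [Group Γ] [NormedAddCommGroup K]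
  [InnerProductSpace ℂ K] [CompleteSpace K] {π : G →* (K →L[ℂ] K)} {lam : Γ →* (K →L[ℂ] K)}
  {W : Set (K →L[ℂ] K)} {Ω : K} {m : Set Γ → (K →L[ℂ] K)}

theorem cm_sum {ι : Type} {s : Finset ι} {X : ι → (K →L[ℂ] K)} (h : ∀ i ∈ s, Cm W (X i)) :
    Cm W (∑ i ∈ s, X i) := fun w hw => by
  rw [Finset.sum_mul, Finset.mul_sum]
  exact Finset.sum_congr rfl fun i hi => h i hi w hw

theorem Dg.sum {ι : Type} {s : Finset ι} {f : ι → Γ → ℂ} {X : ι → (K →L[ℂ] K)} (c : ι → ℂ)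
    (h : ∀ i ∈ s, Dg m (f i) (X i)) : Dg m (fun γ => ∑ i ∈ s, c i * f i γ) (∑ i ∈ s, c i • X i) := by
  intro γ
  rw [Finset.mul_sum, Finset.sum_smul]
  refine Finset.sum_congr rfl fun i hi => ?_
  rw [mul_smul_comm, h i hi γ, smul_smul]

/-- **The trace of a sum of products.** -/
theorem trn_sum (hP : ∀ g, adjoint (π g) = π g⁻¹) (hL : ∀ γ, adjoint (lam γ) = lam γ⁻¹)
    (hcomm : ∀ g γ, π g * lam γ = lam γ * π g)
    (hWP : ∀ w ∈ W, ∀ g, π g * w * π g⁻¹ ∈ W) (hΩ : ‖Ω‖ = 1)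
    (htr : ∀ T, Cm W T → ∀ g, TRN lam Ω (π g * T * π g⁻¹) = TRN lam Ω T)
    (hM : Ms lam W Ω m) {ι : Type} (s : Finset ι) {f g : ι → Γ → ℂ} {X Y : ι → (K →L[ℂ] K)}
    (hX : ∀ i, Dg m (f i) (X i)) (hY : ∀ i γ, Y i (lam γ Ω) = g i γ • lam γ Ω)
    (hXW : ∀ i, Cm W (X i)) (hYW : ∀ i, Cm W (Y i)) {c : ℝ≥0∞}
    (hc : ∀ ξ, ∑' γ, ‖∑ i ∈ s, g i γ * f i (γ * ξ)‖ₑ ^ 2 ≤ c) (x y : G) :
    TRN lam Ω (∑ i ∈ s, (π x⁻¹ * X i * π x) * (π y⁻¹ * Y i * π y)) ≤ c := by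
  have hcX : ∀ i, Cm W (π x⁻¹ * X i * π x) := fun i => by
    have := cm_conj hWP (hXW i) x⁻¹
    rwa [inv_inv] at this
  have hcY : ∀ i, Cm W (π y⁻¹ * Y i * π y) := fun i => by
    have := cm_conj hWP (hYW i) y⁻¹
    rwa [inv_inv] at this
  rw [← htr _ (cm_sum fun i _ => cm_mul (hcX i) (hcY i)) y]
  have e2 : π y * (∑ i ∈ s, (π x⁻¹ * X i * π x) * (π y⁻¹ * Y i * π y)) * π y⁻¹ =
      ∑ i ∈ s, π (y * x⁻¹) * (X i * π (x * y⁻¹) * Y i) := by
    have e : π y * π y⁻¹ = 1 := by rw [← map_mul, mul_inv_cancel, map_one]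
    rw [Finset.mul_sum, Finset.sum_mul]
    refine Finset.sum_congr rfl fun i _ => ?_
    rw [map_mul π y, map_mul π x]
    calc _ = π y * π x⁻¹ * (X i * (π x * π y⁻¹) * Y i) * (π y * π y⁻¹) := by
          simp only [mul_assoc]
      _ = _ := by rw [e, mul_one]
  rw [e2]
  obtain ⟨z, hz⟩ : ∃ z, z = x * y⁻¹ := ⟨_, rfl⟩
  rw [← hz]
  have e3 : ∀ γ, ‖(∑ i ∈ s, π (y * x⁻¹) * (X i * π z * Y i)) (lam γ Ω)‖ₑ ^ 2 =
      ∑' ξ, ‖∑ i ∈ s, g i γ * f i (γ * ξ)‖ₑ ^ 2 * ‖m {ξ} (π z Ω)‖ₑ ^ 2 := fun γ => by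
    have h1 : ‖(∑ i ∈ s, π (y * x⁻¹) * (X i * π z * Y i)) (lam γ Ω)‖ₑ =
        ‖(∑ i ∈ s, g i γ • X i) (lam γ (π z Ω))‖ₑ := by
      have e4 : (∑ i ∈ s, π (y * x⁻¹) * (X i * π z * Y i)) (lam γ Ω) =
          π (y * x⁻¹) ((∑ i ∈ s, g i γ • X i) (lam γ (π z Ω))) := by
        rw [ContinuousLinearMap.sum_apply, ContinuousLinearMap.sum_apply, map_sum]
        refine Finset.sum_congr rfl fun i _ => ?_
        change π (y * x⁻¹) (X i (π z (Y i (lam γ Ω)))) = π (y * x⁻¹) (g i γ • X i (lam γ (π z Ω)))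
        rw [hY i γ, map_smul, map_smul]
        congr 3
        exact congrArg (fun T : K →L[ℂ] K => T Ω) (hcomm z γ)
      rw [e4, ← ofReal_norm_eq_enorm, unitary_norm hP, ofReal_norm_eq_enorm]
    rw [h1, (Dg.sum (fun i => g i γ) (fun i _ => hX i)).norm_sq hM,
      ← (Equiv.mulLeft γ).tsum_eq]
    refine tsum_congr fun ξ => ?_
    have h2 : ‖m {γ * ξ} (lam γ (π z Ω))‖ₑ = ‖m {ξ} (π z Ω)‖ₑ := by
      change ‖(m {γ * ξ} * lam γ) (π z Ω)‖ₑ = _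
      rw [ms_lam hM]
      change ‖lam γ (m {ξ} (π z Ω))‖ₑ = _
      rw [← ofReal_norm_eq_enorm, unitary_norm hL, ofReal_norm_eq_enorm]
    simp only [Equiv.coe_mulLeft]
    rw [h2]
  rw [TRN, tsum_congr e3, ENNReal.tsum_comm]
  calc ∑' ξ, ∑' γ, ‖∑ i ∈ s, g i γ * f i (γ * ξ)‖ₑ ^ 2 * ‖m {ξ} (π z Ω)‖ₑ ^ 2
      = ∑' ξ, (∑' γ, ‖∑ i ∈ s, g i γ * f i (γ * ξ)‖ₑ ^ 2) * ‖m {ξ} (π z Ω)‖ₑ ^ 2 :=
        tsum_congr fun ξ => ENNReal.tsum_mul_right
    _ ≤ ∑' ξ, c * ‖m {ξ} (π z Ω)‖ₑ ^ 2 := by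
        refine ENNReal.tsum_le_tsum fun ξ => ?_
        gcongr
        exact hc ξ
    _ = c * ‖π z Ω‖ₑ ^ 2 := by rw [ENNReal.tsum_mul_left, ms_parseval hM]
    _ = c := by
        rw [enorm_sq, unitary_norm hP, hΩ]
        simp

/-- the trace is invariant under conjugation by `lam` -/
theorem trn_lam (γ : Γ) (hL : ∀ γ, adjoint (lam γ) = lam γ⁻¹) (T : K →L[ℂ] K) :
    TRN lam Ω (lam γ⁻¹ * T * lam γ) = TRN lam Ω T := by
  rw [TRN, TRN, ← (Equiv.mulLeft γ).tsum_eq fun η => ‖T (lam η Ω)‖ₑ ^ 2]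
  refine tsum_congr fun η => ?_
  have e1 : (lam γ⁻¹ * T * lam γ) (lam η Ω) = lam γ⁻¹ (T (lam (γ * η) Ω)) := by
    rw [map_mul]
    rfl
  rw [e1, ← ofReal_norm_eq_enorm, unitary_norm hL, ofReal_norm_eq_enorm]
  rfl

end tr

section uc

variable {G Γ K : Type} [Group G] [TopologicalSpace G] [Group Γ] [NormedAddCommGroup K]
  [InnerProductSpace ℂ K] [CompleteSpace K] {π : G →* (K →L[ℂ] K)} {lam : Γ →* (K →L[ℂ] K)}
  {W : Set (K →L[ℂ] K)} {Ω : K} {mp : (Γ → ℝ) → (K →L[ℂ] K)}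

/-- step functions -/
theorem step_close {n : ℕ} (hn : 0 < n) {t : ℝ} (h0 : 0 ≤ t) (h1 : t ≤ 1) :
    |t - (n : ℝ)⁻¹ * ∑ j ∈ Finset.range n, ind (fun s : ℝ => ((j + 1 : ℕ) : ℝ) ≤ n * s) t| ≤
      (n : ℝ)⁻¹ := by
  have hn' : (0 : ℝ) < n := by exact_mod_cast hn
  have e1 : ∑ j ∈ Finset.range n, ind (fun s : ℝ => ((j + 1 : ℕ) : ℝ) ≤ n * s) t =
      (⌊(n : ℝ) * t⌋₊ : ℝ) := by
    have h2 : 0 ≤ (n : ℝ) * t := by positivity
    have h3 : ∀ j : ℕ, ind (fun s : ℝ => ((j + 1 : ℕ) : ℝ) ≤ n * s) t =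
        if j < ⌊(n : ℝ) * t⌋₊ then (1 : ℝ) else 0 := by
      intro j
      by_cases h4 : j < ⌊(n : ℝ) * t⌋₊
      · rw [if_pos h4, ind_pos]
        exact (Nat.le_floor_iff h2).1 h4
      · rw [if_neg h4, ind_neg]
        intro h5
        exact h4 ((Nat.le_floor_iff h2).2 h5)
    simp_rw [h3]
    rw [← Finset.sum_filter, Finset.sum_const, nsmul_eq_mul, mul_one]
    have h5 : (Finset.range n).filter (fun j => j < ⌊(n : ℝ) * t⌋₊) =
        Finset.range ⌊(n : ℝ) * t⌋₊ := by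
      ext j
      rw [Finset.mem_filter, Finset.mem_range, Finset.mem_range]
      refine ⟨fun h => h.2, fun h => ⟨?_, h⟩⟩
      have h6 : ⌊(n : ℝ) * t⌋₊ ≤ n := by
        refine Nat.floor_le_of_le ?_
        nlinarith
      exact h.trans_le h6
    rw [h5, Finset.card_range]
  rw [e1]
  have h2 : 0 ≤ (n : ℝ) * t := by positivity
  have h3 := Nat.floor_le h2
  have h4 := Nat.lt_floor_add_one ((n : ℝ) * t)
  have e2 : t - (n : ℝ)⁻¹ * (⌊(n : ℝ) * t⌋₊ : ℝ) = (n : ℝ)⁻¹ * (n * t - ⌊(n : ℝ) * t⌋₊) := by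
    field_simp
  rw [e2, abs_mul, abs_of_pos (inv_pos.2 hn'), abs_of_nonneg (by linarith)]
  exact mul_le_of_le_one_right (inv_pos.2 hn').le (by linarith)

/-- **(UC) for functions with values in `[0,1]`.** -/
theorem uc_pos (hf : Fn mp) (hpi : ∀ g ξ, ‖π g ξ‖ = ‖ξ‖) (hΩ : ‖Ω‖ = 1)
    (hUC : UC π W Ω (st mp)) {δ : ℝ} (hδ : 0 < δ) : ∀ᶠ g in 𝓝 (1 : G), ∀ F : Γ → ℝ,
    (∀ x, 0 ≤ F x) → (∀ x, F x ≤ 1) → ∀ B, Cm W B → ‖B‖ ≤ 1 → ∀ h,
      ‖(mp F * π g - π g * mp F) (B (π h Ω))‖ ≤ δ := by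
  obtain ⟨n, hn⟩ := exists_nat_gt (4 / δ)
  have hn0 : 0 < n := by
    rcases Nat.eq_zero_or_pos n with h | h
    · rw [h, Nat.cast_zero] at hn
      exact absurd hn (not_lt.2 (by positivity))
    · exact h
  have hn' : (0 : ℝ) < n := by exact_mod_cast hn0
  filter_upwards [hUC (δ / 2) (by positivity)] with g hg F h0 h1 B hB hB1 h
  obtain ⟨D, hD⟩ : ∃ D : ℕ → Set Γ, D = fun j => {x | ((j + 1 : ℕ) : ℝ) ≤ n * F x} := ⟨_, rfl⟩
  obtain ⟨S, hS⟩ : ∃ S : Γ → ℝ, S = fun x => (n : ℝ)⁻¹ * ∑ j ∈ Finset.range n,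
    ind (fun s : ℝ => ((j + 1 : ℕ) : ℝ) ≤ n * s) (F x) := ⟨_, rfl⟩
  have e0 : ∀ j x, ind (fun s : ℝ => ((j + 1 : ℕ) : ℝ) ≤ n * s) (F x) =
      ind (fun x => x ∈ D j) x := by
    intro j x
    by_cases h5 : ((j + 1 : ℕ) : ℝ) ≤ n * F x
    · rw [ind_pos (P := fun s : ℝ => ((j + 1 : ℕ) : ℝ) ≤ n * s) h5,
        ind_pos (P := fun x => x ∈ D j) (by rw [hD]; exact h5)]
    · rw [ind_neg (P := fun s : ℝ => ((j + 1 : ℕ) : ℝ) ≤ n * s) h5,
        ind_neg (P := fun x => x ∈ D j) (by rw [hD]; exact h5)]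
  have hsum : ∀ (m : ℕ), mp (fun x => ∑ j ∈ Finset.range m, ind (fun x => x ∈ D j) x) =
      ∑ j ∈ Finset.range m, st mp (D j) := by
    intro m
    induction m with
    | zero => simp only [Finset.range_zero, Finset.sum_empty]; exact hf.zero
    | succ m ih =>
      simp only [Finset.sum_range_succ]
      rw [hf.add (C := m) (D := 1) ?_ (fun x => abs_ind_le _ x), ih]
      · rfl
      · intro x
        refine (Finset.abs_sum_le_sum_abs _ _).trans ?_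
        refine (Finset.sum_le_sum fun j _ => abs_ind_le _ x).trans ?_
        simp
  have hSb : ∀ x, |∑ j ∈ Finset.range n, ind (fun x => x ∈ D j) x| ≤ n := by
    intro x
    refine (Finset.abs_sum_le_sum_abs _ _).trans ?_
    refine (Finset.sum_le_sum fun j _ => abs_ind_le _ x).trans ?_
    simp
  have eS : mp S = ((n : ℝ)⁻¹ : ℂ) • ∑ j ∈ Finset.range n, st mp (D j) := by
    rw [← hsum n]
    have := hf.smul (n : ℝ)⁻¹ hSb
    rw [Complex.ofReal_inv] at this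
    rw [← this, hS]
    congr 1
    funext x
    congr 1
    exact Finset.sum_congr rfl fun j _ => e0 j x
  have hcl : ∀ x, |F x - S x| ≤ (n : ℝ)⁻¹ := fun x => by
    rw [hS]
    exact step_close hn0 (h0 x) (h1 x)
  have hFb : ∀ x, |F x| ≤ 1 := fun x => abs_le.2 ⟨by linarith [h0 x], h1 x⟩
  have hSb' : ∀ x, |S x| ≤ 1 + (n : ℝ)⁻¹ := fun x => by
    have h5 := hcl x
    have h6 := hFb x
    have : S x = F x - (F x - S x) := by ring
    rw [this]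
    exact (abs_sub _ _).trans (add_le_add h6 h5)
  have hdiff : ∀ ζ, ‖mp F ζ - mp S ζ‖ ≤ (n : ℝ)⁻¹ * ‖ζ‖ := fun ζ => by
    have h5 : mp F ζ - mp S ζ = mp (fun x => F x - S x) ζ := by
      rw [hf.sub hFb hSb']
      rfl
    rw [h5]
    exact hf.norm_le (inv_pos.2 hn').le hcl ζ
  obtain ⟨ζ, hζ⟩ : ∃ ζ, ζ = B (π h Ω) := ⟨_, rfl⟩
  have hζ1 : ‖ζ‖ ≤ 1 := by
    rw [hζ]
    refine (B.le_opNorm _).trans ?_
    rw [hpi, hΩ, mul_one]
    exact hB1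
  rw [← hζ]
  have c1 : ‖(mp S * π g - π g * mp S) ζ‖ ≤ δ / 2 := by
    have e5 : (mp S * π g - π g * mp S) ζ = ((n : ℝ)⁻¹ : ℂ) • ∑ j ∈ Finset.range n,
        (st mp (D j) * π g - π g * st mp (D j)) ζ := by
      rw [eS, smul_mul_assoc, mul_smul_comm, ← smul_sub, Finset.sum_mul, Finset.mul_sum,
        ← Finset.sum_sub_distrib]
      rw [ContinuousLinearMap.smul_apply, ContinuousLinearMap.sum_apply]
    rw [e5, norm_smul]
    have h6 : ‖∑ j ∈ Finset.range n, (st mp (D j) * π g - π g * st mp (D j)) ζ‖ ≤ n * (δ / 2) := by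
      refine (norm_sum_le _ _).trans ?_
      refine (Finset.sum_le_sum fun j _ => ?_ : _ ≤ ∑ j ∈ Finset.range n, δ / 2).trans ?_
      · rw [hζ]
        exact hg (D j) B hB hB1 h
      · simp
    have h7 : ‖((n : ℝ)⁻¹ : ℂ)‖ = (n : ℝ)⁻¹ := by
      rw [norm_inv]
      simp
    calc _ ≤ ‖((n : ℝ)⁻¹ : ℂ)‖ * (n * (δ / 2)) := mul_le_mul_of_nonneg_left h6 (norm_nonneg _)
      _ = δ / 2 := by rw [h7]; field_simp
  have c2 : (mp F * π g - π g * mp F) ζ = (mp S * π g - π g * mp S) ζ +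
      ((mp F (π g ζ) - mp S (π g ζ)) - π g (mp F ζ - mp S ζ)) := by
    change mp F (π g ζ) - π g (mp F ζ) = (mp S (π g ζ) - π g (mp S ζ)) + _
    rw [map_sub]
    abel
  rw [c2]
  refine (norm_add_le _ _).trans ?_
  have c3 : ‖mp F (π g ζ) - mp S (π g ζ)‖ ≤ (n : ℝ)⁻¹ := by
    refine (hdiff _).trans ?_
    rw [hpi]
    exact mul_le_of_le_one_right (inv_pos.2 hn').le hζ1
  have c4 : ‖π g (mp F ζ - mp S ζ)‖ ≤ (n : ℝ)⁻¹ := by
    rw [hpi]
    refine (hdiff _).trans ?_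
    exact mul_le_of_le_one_right (inv_pos.2 hn').le hζ1
  have c5 : (n : ℝ)⁻¹ ≤ δ / 4 := by
    rw [inv_le_comm₀ hn' (by positivity)]
    rw [inv_div]
    exact hn.le
  have c6 := norm_sub_le (mp F (π g ζ) - mp S (π g ζ)) (π g (mp F ζ - mp S ζ))
  linarith

/-- **(UC) for complex functions.** -/
theorem uc_fn (hf : Fn mp) (hpi : ∀ g ξ, ‖π g ξ‖ = ‖ξ‖) (hΩ : ‖Ω‖ = 1)
    (hUC : UC π W Ω (st mp)) {δ : ℝ} (hδ : 0 < δ) : ∀ᶠ g in 𝓝 (1 : G), ∀ F : Γ → ℂ,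
    (∀ x, ‖F x‖ ≤ 1) → ∀ B, Cm W B → ‖B‖ ≤ 1 → ∀ h,
      ‖(mc mp F * π g - π g * mc mp F) (B (π h Ω))‖ ≤ δ := by
  filter_upwards [uc_pos hf hpi hΩ hUC (δ := δ / 4) (by positivity)] with g hg F hF B hB hB1 h
  -- real functions
  have key : ∀ R : Γ → ℝ, (∀ x, |R x| ≤ 1) →
      ‖(mp R * π g - π g * mp R) (B (π h Ω))‖ ≤ δ / 2 := by
    intro R hR
    obtain ⟨P, hP⟩ : ∃ P : Γ → ℝ, P = fun x => 2⁻¹ * (R x + 1) := ⟨_, rfl⟩
    have hP0 : ∀ x, 0 ≤ P x := fun x => by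
      rw [hP]
      have := (abs_le.1 (hR x)).1
      change 0 ≤ 2⁻¹ * (R x + 1)
      linarith
    have hP1 : ∀ x, P x ≤ 1 := fun x => by
      rw [hP]
      have := (abs_le.1 (hR x)).2
      change 2⁻¹ * (R x + 1) ≤ 1
      linarith
    have hPb : ∀ x, |P x| ≤ 1 := fun x => abs_le.2 ⟨by linarith [hP0 x], hP1 x⟩
    have e1 : mp R = (2 : ℂ) • mp P - 1 := by
      have h1 : R = fun x => 2 * P x - 1 := by
        funext x
        rw [hP]
        ring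
      have h2 : ∀ x, |2 * P x| ≤ 2 := fun x => by
        rw [abs_mul, abs_two]
        have := hPb x
        linarith
      have h3 := hf.smul 2 hPb
      have h4 := hf.sub (F := fun x => 2 * P x) (G := fun _ => (1 : ℝ)) (C := 2) (D := 1) h2
        (fun _ => by simp)
      conv_lhs => rw [h1]
      rw [h4, h3, hf.one]
      norm_num
    have e2 : mp R * π g - π g * mp R = (2 : ℂ) • (mp P * π g - π g * mp P) := by
      rw [e1, sub_mul, mul_sub, one_mul, mul_one, smul_mul_assoc, mul_smul_comm, smul_sub]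
      abel
    rw [e2, ContinuousLinearMap.smul_apply, norm_smul]
    have h5 := hg P hP0 hP1 B hB hB1 h
    have h6 : ‖(2 : ℂ)‖ = 2 := by norm_num
    rw [h6]
    linarith
  have h1 := key (fun x => (F x).re) fun x => (Complex.abs_re_le_norm _).trans (hF x)
  have h2 := key (fun x => (F x).im) fun x => (Complex.abs_im_le_norm _).trans (hF x)
  have e : mc mp F * π g - π g * mc mp F =
      (mp (fun x => (F x).re) * π g - π g * mp (fun x => (F x).re)) +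
        Complex.I • (mp (fun x => (F x).im) * π g - π g * mp (fun x => (F x).im)) := by
    rw [mc, add_mul, mul_add, smul_mul_assoc, mul_smul_comm, smul_sub]
    abel
  rw [e, ContinuousLinearMap.add_apply, ContinuousLinearMap.smul_apply]
  refine (norm_add_le _ _).trans ?_
  rw [norm_smul, Complex.norm_I, one_mul]
  linarith

end uc

end Vale.Agent.P092.H486.Rel
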