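import Vale.Agent.P092.H486.RelA

/-!
P092 (helper486), Team P, Track C (`k = ℂ`), part 2: the growth estimate for a finite sum of
products of two conjugated multiplication operators.
-/

set_option linter.all false

open scoped InnerProductSpace Pointwise ENNReal
open Filter Topology ContinuousLinearMap TopologicalSpace MeasureTheory

namespace Vale.Agent.P092.H486.Rel

open Vale.Agent.P092.H859.CL
open Vale.Agent.P092.RC (Pic Moore Cm TRN)
open Vale.Agent.P092.SD (Ms UC)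
open Vale.Agent.P092.H494.PI (Dg cm_mul cm_adj cm_conj unitary_norm ms_lam ms_om ms_parseval enorm_sq)
open Vale.Agent.P092.H486.Eng (dg_mc)
open Vale.Agent.P092.H790.CTA (ORBG SIZEG)

section est

variable {G Γ K V : Type} [Group G] [TopologicalSpace G] [IsTopologicalGroup G] [Group Γ]
  [NormedAddCommGroup K] [InnerProductSpace ℂ K] [CompleteSpace K] {π : G →* (K →L[ℂ] K)}
  {lam : Γ →* (K →L[ℂ] K)} {W : Set (K →L[ℂ] K)} {Ω : K} {mp : (Γ → ℝ) → (K →L[ℂ] K)}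
  [NormedAddCommGroup V] [ProperSpace V] [MeasurableSpace V] [BorelSpace V] {μ : Measure V}
  [IsFiniteMeasureOnCompacts μ] [μ.IsOpenPosMeasure] {b b' : G} {n : V → G} {ρ : ℝ}

/-- the operator of the estimate -/
noncomputable def XX {ι : Type} [Fintype ι] (mp : (Γ → ℝ) → (K →L[ℂ] K)) (π : G →* (K →L[ℂ] K))
    (w : G) (F F' : ι → Γ → ℂ) : K →L[ℂ] K :=
  ∑ i, mc mp (F i) * PC mp (fun g => π g) w (F' i)

theorem mc_om (hM : Ms lam W Ω (st mp)) (hf : Fn mp) {F : Γ → ℂ} {C : ℝ} (hF : ∀ g, ‖F g‖ ≤ C)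
    (γ : Γ) : mc mp F (lam γ Ω) = F γ • lam γ Ω := by
  have h1 := (dg_mc (F := fun g => (starRingEnd ℂ) (F g)) hf (C := C)
    (fun g => by rw [RCLike.norm_conj]; exact hF g)).adj_om hM γ
  rw [mc_adj hf (fun g => by rw [RCLike.norm_conj]; exact hF g)] at h1
  simpa only [Complex.conj_conj] using h1

theorem XX_norm {ι : Type} [Fintype ι] (hf : Fn mp) (hR : Rep fun g => π g) {M : ℝ} (hM0 : 0 ≤ M)
    {F F' : ι → Γ → ℂ} (hF : ∀ i x, ‖F i x‖ ≤ M) (hF' : ∀ i x, ‖F' i x‖ ≤ M) (w : G) :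
    ‖XX mp π w F F'‖ ≤ Fintype.card ι * M ^ 2 := by
  rw [XX]
  refine (norm_sum_le _ _).trans ?_
  refine (Finset.sum_le_sum fun i _ => ?_ : _ ≤ ∑ i : ι, M ^ 2).trans ?_
  · refine (norm_mul_le _ _).trans ?_
    rw [sq]
    refine mul_le_mul (ContinuousLinearMap.opNorm_le_bound _ hM0 (mc_norm hf hM0 (hF i)))
      (PC_opNorm hf hR hM0 (hF' i) w) (norm_nonneg _) hM0
  · simp

/-- **moving a small element through the product** -/
theorem XX_move {ι : Type} [Fintype ι] (hP : ∀ g, adjoint (π g) = π g⁻¹)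
    (hL : ∀ γ, adjoint (lam γ) = lam γ⁻¹)
    (hcomm : ∀ g γ, π g * lam γ = lam γ * π g) (hWL : ∀ w ∈ W, ∀ γ, w * lam γ = lam γ * w)
    (hf : Fn mp) (hleg : Leg mp (fun g => π g) (fun γ => lam γ) W) (hR : Rep fun g => π g)
    {M : ℝ} (hM1 : 1 ≤ M) {ε : ℝ} {g g' w h : G}
    (hε : 0 ≤ ε) (hg : ∀ F : Γ → ℂ, (∀ x, ‖F x‖ ≤ 1) → ∀ B, Cm W B → ‖B‖ ≤ 1 → ∀ h,
      ‖(mc mp F * π g - π g * mc mp F) (B (π h Ω))‖ ≤ ε)
    (hg' : ∀ F : Γ → ℂ, (∀ x, ‖F x‖ ≤ 1) → ∀ B, Cm W B → ‖B‖ ≤ 1 → ∀ h,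
      ‖(mc mp F * π g' - π g' * mc mp F) (B (π h Ω))‖ ≤ ε) (hgg : w * g = g' * w)
    {F F' : ι → Γ → ℂ} (hF : ∀ i x, ‖F i x‖ ≤ M) (hF' : ∀ i x, ‖F' i x‖ ≤ M) (γ : Γ) :
    ‖XX mp π w F F' (π g (lam γ (π h Ω))) - π g (XX mp π w F F' (lam γ (π h Ω)))‖ ≤
      2 * (Fintype.card ι * M ^ 2) * ε := by
  have hM0 : 0 < M := by linarith
  have hpi : ∀ g ξ, ‖π g ξ‖ = ‖ξ‖ := fun g ξ => unitary_norm hP g ξ
  -- scaled estimate
  have sc : ∀ {g : G}, (∀ F : Γ → ℂ, (∀ x, ‖F x‖ ≤ 1) → ∀ B, Cm W B → ‖B‖ ≤ 1 → ∀ h,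
      ‖(mc mp F * π g - π g * mc mp F) (B (π h Ω))‖ ≤ ε) → ∀ (F : Γ → ℂ), (∀ x, ‖F x‖ ≤ M) →
      ∀ B, Cm W B → ∀ L : ℝ, 0 < L → ‖B‖ ≤ L → ∀ h,
      ‖(mc mp F * π g - π g * mc mp F) (B (π h Ω))‖ ≤ M * L * ε := by
    intro g hg F hF B hB L hL0 hBL h
    have e1 : mc mp F = (M : ℂ) • mc mp (fun x => (M : ℂ)⁻¹ * F x) := by
      rw [mc_smul hf _ hF, smul_smul, mul_inv_cancel₀ (by exact_mod_cast hM0.ne'), one_smul]
    have e2 : B = (L : ℂ) • ((L : ℂ)⁻¹ • B) := by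
      rw [smul_smul, mul_inv_cancel₀ (by exact_mod_cast hL0.ne'), one_smul]
    have h1 := hg (fun x => (M : ℂ)⁻¹ * F x) (fun x => by
      rw [norm_mul, norm_inv, Complex.norm_real, Real.norm_eq_abs, abs_of_pos hM0,
        inv_mul_le_iff₀ hM0, mul_one]
      exact hF x) ((L : ℂ)⁻¹ • B) (fun w' hw' => by
      rw [smul_mul_assoc, hB w' hw', mul_smul_comm]) (by
      rw [norm_smul, norm_inv, Complex.norm_real, Real.norm_eq_abs, abs_of_pos hL0,
        inv_mul_le_iff₀ hL0, mul_one]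
      exact hBL) h
    have e3 : (mc mp F * π g - π g * mc mp F) (B (π h Ω)) = (M : ℂ) • (L : ℂ) •
        (mc mp (fun x => (M : ℂ)⁻¹ * F x) * π g - π g * mc mp (fun x => (M : ℂ)⁻¹ * F x))
          (((L : ℂ)⁻¹ • B) (π h Ω)) := by
      conv_lhs => rw [e1, e2]
      rw [smul_mul_assoc, mul_smul_comm, ← smul_sub]
      simp only [ContinuousLinearMap.smul_apply, map_smul]
      have hL' : (L : ℂ) ≠ 0 := by exact_mod_cast hL0.ne'
      rw [smul_inv_smul₀ hL', smul_inv_smul₀ hL']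
    rw [e3, norm_smul, norm_smul, Complex.norm_real, Complex.norm_real, Real.norm_eq_abs,
      Real.norm_eq_abs, abs_of_pos hM0, abs_of_pos hL0, mul_assoc]
    gcongr
  -- one summand
  have one : ∀ i, ‖(mc mp (F i) * PC mp (fun g => π g) w (F' i)) (π g (lam γ (π h Ω))) -
      π g ((mc mp (F i) * PC mp (fun g => π g) w (F' i)) (lam γ (π h Ω)))‖ ≤ 2 * (M ^ 2 * ε) := by
    intro i
    obtain ⟨ζ, hζ⟩ : ∃ ζ, ζ = lam γ (π h Ω) := ⟨_, rfl⟩
    rw [← hζ]
    -- first error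
    have hW1 : Cm W (lam γ) := fun w' hw' => (hWL w' hw' γ).symm
    have hl1 : ‖lam γ‖ ≤ 1 := ContinuousLinearMap.opNorm_le_bound _ zero_le_one fun x => by
      rw [one_mul, unitary_norm hL]
    have a1 := sc hg' (F' i) (hF' i) (lam γ) hW1 1 one_pos hl1 (w * h)
    have e1 : lam γ (π (w * h) Ω) = π w ζ := by
      rw [hζ, map_mul]
      exact congrArg (fun T : K →L[ℂ] K => T (π h Ω)) (hcomm w γ).symm
    rw [e1] at a1
    have e2 : PC mp (fun g => π g) w (F' i) (π g ζ) - π g (PC mp (fun g => π g) w (F' i) ζ) =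
        π w⁻¹ ((mc mp (F' i) * π g' - π g' * mc mp (F' i)) (π w ζ)) := by
      have e3 : π w (π g ζ) = π g' (π w ζ) := by
        change (π w * π g) ζ = (π g' * π w) ζ
        rw [← map_mul, hgg, map_mul]
      have e4 : ∀ x, π w⁻¹ (π g' x) = π g (π w⁻¹ x) := by
        intro x
        change (π w⁻¹ * π g') x = (π g * π w⁻¹) x
        rw [← map_mul, ← map_mul]
        congr 2
        have : g' = w * g * w⁻¹ := by rw [hgg, mul_inv_cancel_right]
        rw [this]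
        group
      change π w⁻¹ (mc mp (F' i) (π w (π g ζ))) - π g (π w⁻¹ (mc mp (F' i) (π w ζ))) =
        π w⁻¹ (mc mp (F' i) (π g' (π w ζ)) - π g' (mc mp (F' i) (π w ζ)))
      rw [map_sub, e4, e3]
    have b1 : ‖PC mp (fun g => π g) w (F' i) (π g ζ) -
        π g (PC mp (fun g => π g) w (F' i) ζ)‖ ≤ M * ε := by
      rw [e2, hpi]
      linarith
    -- second error
    have hW2 : Cm W (PC mp (fun g => π g) w (F' i) * lam γ) :=
      cm_mul (fun w' hw' => (PC_W hleg hf hR hw' (hF' i) w).symm) hW1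
    have hl2 : ‖PC mp (fun g => π g) w (F' i) * lam γ‖ ≤ M := by
      refine (norm_mul_le _ _).trans ?_
      calc _ ≤ M * 1 := mul_le_mul (PC_opNorm hf hR hM0.le (hF' i) w) hl1 (norm_nonneg _) hM0.le
        _ = M := mul_one M
    have a2 := sc hg (F i) (hF i) _ hW2 M hM0 hl2 h
    have e5 : (PC mp (fun g => π g) w (F' i) * lam γ) (π h Ω) = PC mp (fun g => π g) w (F' i) ζ := by
      rw [hζ]
      rfl
    rw [e5] at a2
    have e6 : (mc mp (F i) * PC mp (fun g => π g) w (F' i)) (π g ζ) -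
        π g ((mc mp (F i) * PC mp (fun g => π g) w (F' i)) ζ) =
        mc mp (F i) (PC mp (fun g => π g) w (F' i) (π g ζ) -
          π g (PC mp (fun g => π g) w (F' i) ζ)) +
        (mc mp (F i) * π g - π g * mc mp (F i)) (PC mp (fun g => π g) w (F' i) ζ) := by
      change mc mp (F i) (PC mp (fun g => π g) w (F' i) (π g ζ)) -
        π g (mc mp (F i) (PC mp (fun g => π g) w (F' i) ζ)) = _ +
        (mc mp (F i) (π g (PC mp (fun g => π g) w (F' i) ζ)) -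
          π g (mc mp (F i) (PC mp (fun g => π g) w (F' i) ζ)))
      rw [map_sub]
      abel
    rw [e6]
    refine (norm_add_le _ _).trans ?_
    have c1 : ‖mc mp (F i) (PC mp (fun g => π g) w (F' i) (π g ζ) -
          π g (PC mp (fun g => π g) w (F' i) ζ))‖ ≤ M * (M * ε) :=
      (mc_norm hf hM0.le (hF i) _).trans (mul_le_mul_of_nonneg_left b1 hM0.le)
    nlinarith
  have e : XX mp π w F F' (π g (lam γ (π h Ω))) - π g (XX mp π w F F' (lam γ (π h Ω))) =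
      ∑ i, ((mc mp (F i) * PC mp (fun g => π g) w (F' i)) (π g (lam γ (π h Ω))) -
      π g ((mc mp (F i) * PC mp (fun g => π g) w (F' i)) (lam γ (π h Ω)))) := by
    rw [XX, ContinuousLinearMap.sum_apply, ContinuousLinearMap.sum_apply, map_sum,
      ← Finset.sum_sub_distrib]
  rw [e]
  refine (norm_sum_le _ _).trans ?_
  refine (Finset.sum_le_sum fun i _ => one i).trans (le_of_eq ?_)
  rw [Finset.sum_const, nsmul_eq_mul, Finset.card_univ]
  ring

end est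

end Vale.Agent.P092.H486.Rel
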