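import Vale.Agent.P092.H486.RelB

/-!
P092 (helper486), Team P, Track C (`k = ℂ`), part 3: the growth estimate.
-/

set_option linter.all false

open scoped InnerProductSpace Pointwise ENNReal
open Filter Topology ContinuousLinearMap TopologicalSpace MeasureTheory

namespace Vale.Agent.P092.H486.Rel

open Vale.Agent.P092.H859.CL
open Vale.Agent.P092.RC (Pic Moore Cm TRN)
open Vale.Agent.P092.SD (Ms UC)
open Vale.Agent.P092.H494.PI (Dg cm_mul cm_adj cm_conj unitary_norm ms_lam ms_om ms_parseval enorm_sq)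
open Vale.Agent.P092.H486.Eng (dg_mc)
open Vale.Agent.P092.H790.CTA (ORBG SIZEG)

section est

variable {G Γ K V : Type} [Group G] [TopologicalSpace G] [IsTopologicalGroup G] [Group Γ]
  [NormedAddCommGroup K] [InnerProductSpace ℂ K] [CompleteSpace K] {π : G →* (K →L[ℂ] K)}
  {lam : Γ →* (K →L[ℂ] K)} {W : Set (K →L[ℂ] K)} {Ω : K} {mp : (Γ → ℝ) → (K →L[ℂ] K)}
  [NormedAddCommGroup V] [ProperSpace V] [MeasurableSpace V] [BorelSpace V] {μ : Measure V}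
  [IsFiniteMeasureOnCompacts μ] [μ.IsOpenPosMeasure] {b b' : G} {n : V → G} {ρ : ℝ}

theorem XX_cm {ι : Type} [Fintype ι] (hleg : Leg mp (fun g => π g) (fun γ => lam γ) W)
    (hf : Fn mp) (hR : Rep fun g => π g) {M : ℝ} {F F' : ι → Γ → ℂ} (hF : ∀ i x, ‖F i x‖ ≤ M)
    (hF' : ∀ i x, ‖F' i x‖ ≤ M) (w : G) : Cm W (XX mp π w F F') :=
  cm_sum fun i _ => cm_mul (fun w' hw' => (hleg.WmC hf hw' (hF i)).symm)
    (fun w' hw' => (PC_W hleg hf hR hw' (hF' i) w).symm)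

theorem XX_trn {ι : Type} [Fintype ι] (hp : Pic π lam W Ω) (hM : Ms lam W Ω (st mp))
    (hleg : Leg mp (fun g => π g) (fun γ => lam γ) W)
    (hf : Fn mp) (hR : Rep fun g => π g) {M : ℝ} {F F' : ι → Γ → ℂ} (hF : ∀ i x, ‖F i x‖ ≤ M)
    (hF' : ∀ i x, ‖F' i x‖ ≤ M) (w : G) {c : ℝ≥0∞}
    (hc : ∀ ξ, ∑' γ, ‖∑ i, F' i γ * F i (γ * ξ)‖ₑ ^ 2 ≤ c) :
    TRN lam Ω (XX mp π w F F') ≤ c := by
  have h := trn_sum hp.adjP hp.adjL hp.comm hp.WP hp.nΩ hp.tr_conj hM Finset.univ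
    (X := fun i => mc mp (F i)) (Y := fun i => mc mp (F' i)) (f := F) (g := F')
    (fun i => dg_mc hf (hF i)) (fun i γ => mc_om hM hf (hF' i) γ)
    (fun i w' hw' => (hleg.WmC hf hw' (hF i)).symm)
    (fun i w' hw' => (hleg.WmC hf hw' (hF' i)).symm) hc 1 w
  have e : XX mp π w F F' = ∑ i, (π 1⁻¹ * mc mp (F i) * π 1) * (π w⁻¹ * mc mp (F' i) * π w) := by
    rw [XX]
    refine Finset.sum_congr rfl fun i _ => ?_
    rw [inv_one, map_one, one_mul, mul_one]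
    rfl
  rw [e]
  exact h

/-- **The growth estimate.** -/
theorem est (hp : Pic π lam W Ω) (hM : Ms lam W Ω (st mp))
    (hleg : Leg mp (fun g => π g) (fun γ => lam γ) W)
    (hf : Fn mp) (hR : Rep fun g => π g) (hUC : UC π W Ω (st mp)) (hρ : 0 ≤ ρ)
    (hnc : Tendsto n (𝓝 0) (𝓝 1)) (hORB : ORBG μ b n ρ π lam W Ω)
    (hctr : ∀ N : ℕ, ∀ O ∈ 𝓝 (1 : G), ∀ᶠ s : ℕ in atTop, ∀ x ∈ Metric.closedBall (0 : V) 1,
      (b' ^ s)⁻¹ * (b ^ N * n x * (b ^ N)⁻¹) * b' ^ s ∈ O)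
    (ι : Type) [Fintype ι] {M : ℝ} (hM1 : 1 ≤ M) {ε : ℝ} (hε : 0 < ε) :
    ∃ δ > 0, ∀ N : ℕ, ∀ᶠ s : ℕ in atTop, ∀ (γ : Γ) (F F' : ι → Γ → ℂ),
      (∀ i x, ‖F i x‖ ≤ M) → (∀ i x, ‖F' i x‖ ≤ M) → ∀ c : ℝ≥0∞,
      (∀ ξ, ∑' γ, ‖∑ i, F' i γ * F i (γ * ξ)‖ₑ ^ 2 ≤ c) →
      ENNReal.ofReal (ρ ^ N) * c ≤ ENNReal.ofReal δ →
      ‖XX mp π ((b' ^ s)⁻¹ * b ^ N) F F' (lam γ (π (b ^ N)⁻¹ Ω))‖ ≤ ε := by
  have hpi : ∀ g ξ, ‖π g ξ‖ = ‖ξ‖ := fun g ξ => unitary_norm hp.adjP g ξ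
  have hM0 : 0 < M := by linarith
  obtain ⟨L, hLdef⟩ : ∃ L : ℝ, L = Fintype.card ι * M ^ 2 + 1 := ⟨_, rfl⟩
  have hL1 : 1 ≤ L := by rw [hLdef]; nlinarith [mul_nonneg (Nat.cast_nonneg (α := ℝ) (Fintype.card ι)) (sq_nonneg M)]
  have hL0 : 0 < L := by linarith
  have hcL : (Fintype.card ι : ℝ) * M ^ 2 ≤ L := by rw [hLdef]; linarith
  obtain ⟨ε₁, hε₁⟩ : ∃ ε₁ : ℝ, ε₁ = ε / (4 * L) := ⟨_, rfl⟩
  have hε₁0 : 0 < ε₁ := by rw [hε₁]; positivity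
  obtain ⟨U1, hU1⟩ : ∃ U1 : Set G, U1 = {g : G | ∀ F : Γ → ℂ, (∀ x, ‖F x‖ ≤ 1) → ∀ B, Cm W B →
    ‖B‖ ≤ 1 → ∀ h, ‖(mc mp F * π g - π g * mc mp F) (B (π h Ω))‖ ≤ ε₁} := ⟨_, rfl⟩
  have hU1n : U1 ∈ 𝓝 (1 : G) := by
    rw [hU1]
    exact uc_fn hf hpi hp.nΩ hUC hε₁0
  have h0 : Tendsto (fun x : V => (n x)⁻¹) (𝓝 0) (𝓝 1) := by
    have h1 := hnc.inv
    rwa [inv_one] at h1
  obtain ⟨r₀, hr₀, hr₀'⟩ := Metric.eventually_nhds_iff_ball.1 (h0.eventually hU1n)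
  obtain ⟨r, hrdef⟩ : ∃ r : ℝ, r = min (r₀ / 2) 1 := ⟨_, rfl⟩
  have hr : 0 < r := by rw [hrdef]; positivity
  have hr1 : r ≤ 1 := by rw [hrdef]; exact min_le_right _ _
  have hrr₀ : r < r₀ := by
    rw [hrdef]
    exact (min_le_left _ _).trans_lt (half_lt_self hr₀)
  have hμ0 : μ (Metric.closedBall (0 : V) r) ≠ 0 := (Metric.measure_closedBall_pos μ 0 hr).ne'
  have hμt : μ (Metric.closedBall (0 : V) r) ≠ ∞ := (isCompact_closedBall (0 : V) r).measure_ne_top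
  obtain ⟨v, hv⟩ : ∃ v : ℝ, v = (μ (Metric.closedBall (0 : V) r)).toReal := ⟨_, rfl⟩
  have hv0 : 0 < v := by rw [hv]; exact ENNReal.toReal_pos hμ0 hμt
  have hvm : μ (Metric.closedBall (0 : V) r) = ENNReal.ofReal v := by
    rw [hv, ENNReal.ofReal_toReal hμt]
  obtain ⟨q', hq'⟩ : ∃ q' : ℝ, q' = v * (L⁻¹ * (ε / 2)) ^ 2 / 4 := ⟨_, rfl⟩
  have hq0 : 0 < q' := by rw [hq']; positivity
  obtain ⟨C, hC⟩ := hORB 1 q' hq0
  have hC1 : (0 : ℝ) < |C| + 1 := by positivity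
  refine ⟨q' / (|C| + 1), div_pos hq0 hC1, fun N => ?_⟩
  have hO : U1⁻¹ ∈ 𝓝 (1 : G) := inv_mem_nhds_one G hU1n
  filter_upwards [hctr N _ hO] with s hs γ F F' hF hF' c hc hN
  obtain ⟨w, hw⟩ : ∃ w : G, w = (b' ^ s)⁻¹ * b ^ N := ⟨_, rfl⟩
  rw [← hw]
  obtain ⟨X, hX⟩ : ∃ X, X = XX mp π w F F' := ⟨_, rfl⟩
  have hXcm : Cm W X := by rw [hX]; exact XX_cm hleg hf hR hF hF' w
  have hXn : ‖X‖ ≤ L := by
    rw [hX]
    exact (XX_norm hf hR hM0.le hF hF' w).trans hcL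
  have hXt : TRN lam Ω X ≤ c := by rw [hX]; exact XX_trn hp hM hleg hf hR hF hF' w hc
  by_contra hcon
  rw [not_le, ← hX] at hcon
  obtain ⟨T, hT⟩ : ∃ T : K →L[ℂ] K, T = ((L : ℂ)⁻¹) • (lam γ⁻¹ * X * lam γ) := ⟨_, rfl⟩
  have hlW : ∀ γ, Cm W (lam γ) := fun γ w' hw' => (hp.WL w' hw' γ).symm
  have hTcm : Cm W T := by
    intro w' hw'
    rw [hT, smul_mul_assoc, cm_mul (cm_mul (hlW γ⁻¹) hXcm) (hlW γ) w' hw', mul_smul_comm]
  have hln : ∀ γ x, ‖lam γ x‖ = ‖x‖ := fun γ x => unitary_norm hp.adjL γ x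
  have hTap : ∀ x, ‖T x‖ = L⁻¹ * ‖X (lam γ x)‖ := by
    intro x
    rw [hT, ContinuousLinearMap.smul_apply, norm_smul, norm_inv, Complex.norm_real,
      Real.norm_eq_abs, abs_of_pos hL0]
    congr 1
    exact hln _ _
  have hT1 : ‖T‖ ≤ 1 := by
    refine ContinuousLinearMap.opNorm_le_bound _ zero_le_one fun x => ?_
    rw [hTap, one_mul, inv_mul_le_iff₀ hL0]
    refine (X.le_opNorm _).trans ?_
    rw [hln]
    exact mul_le_mul_of_nonneg_right hXn (norm_nonneg _)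
  have hTt : TRN lam Ω T ≤ c := by
    have h1 : TRN lam Ω T ≤ TRN lam Ω (lam γ⁻¹ * X * lam γ) := by
      rw [TRN, TRN]
      refine ENNReal.tsum_le_tsum fun η => ?_
      rw [hT, ContinuousLinearMap.smul_apply, enorm_smul]
      have h2 : ‖((L : ℂ)⁻¹)‖ₑ ≤ 1 := by
        rw [← ofReal_norm_eq_enorm, norm_inv, Complex.norm_real, Real.norm_eq_abs,
          abs_of_pos hL0, ENNReal.ofReal_le_one]
        exact inv_le_one_of_one_le₀ hL1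
      gcongr
      calc ‖((L : ℂ)⁻¹)‖ₑ * ‖(lam γ⁻¹ * X * lam γ) (lam η Ω)‖ₑ
          ≤ 1 * ‖(lam γ⁻¹ * X * lam γ) (lam η Ω)‖ₑ := by gcongr
        _ = _ := one_mul _
    rw [trn_lam γ hp.adjL] at h1
    exact h1.trans hXt
  have hup := hC N T hTcm hT1
  obtain ⟨h, hh⟩ : ∃ h : G, h = (b ^ N)⁻¹ := ⟨_, rfl⟩
  rw [← hh] at hcon
  -- lower bound
  have hlow : ∀ x ∈ Metric.closedBall (0 : V) r, ENNReal.ofReal ((L⁻¹ * (ε / 2)) ^ 2) ≤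
      ‖T (π (1 * b ^ N * n x * 1⁻¹)⁻¹ Ω)‖ₑ ^ 2 := by
    intro x hx
    obtain ⟨g, hg⟩ : ∃ g : G, g = (n x)⁻¹ := ⟨_, rfl⟩
    obtain ⟨g', hg'⟩ : ∃ g' : G, g' = ((b' ^ s)⁻¹ * (b ^ N * n x * (b ^ N)⁻¹) * b' ^ s)⁻¹ := ⟨_, rfl⟩
    have hgU : g ∈ U1 := by
      rw [hg]
      exact hr₀' x (Metric.closedBall_subset_ball hrr₀ hx)
    have hgU' : g' ∈ U1 := by
      rw [hg']
      exact Set.mem_inv.1 (hs x (Metric.closedBall_subset_closedBall hr1 hx))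
    rw [hU1] at hgU hgU'
    have hgg : w * g = g' * w := by
      rw [hw, hg, hg']
      group
    have hmv := XX_move (ι := ι) hp.adjP hp.adjL hp.comm hp.WL hf hleg hR hM1 (h := h) hε₁0.le
      hgU hgU' hgg hF hF' γ
    rw [← hX] at hmv
    have e1 : (1 * b ^ N * n x * 1⁻¹)⁻¹ = g * h := by
      rw [hg, hh]
      group
    have e2 : lam γ (π (1 * b ^ N * n x * 1⁻¹)⁻¹ Ω) = π g (lam γ (π h Ω)) := by
      rw [e1, map_mul]
      exact (congrArg (fun A : K →L[ℂ] K => A (π h Ω)) (hp.comm g γ)).symm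
    have h3 := norm_sub_norm_le (π g (X (lam γ (π h Ω)))) (X (π g (lam γ (π h Ω))))
    rw [norm_sub_rev, hpi] at h3
    have h4 : 2 * (Fintype.card ι * M ^ 2) * ε₁ ≤ ε / 2 := by
      have h5 : 2 * (Fintype.card ι * M ^ 2) * ε₁ ≤ 2 * L * ε₁ := by
        gcongr
      refine h5.trans (le_of_eq ?_)
      rw [hε₁]
      field_simp
      ring
    have h6 : ε / 2 ≤ ‖X (π g (lam γ (π h Ω)))‖ := by linarith
    rw [← ofReal_norm, ← ENNReal.ofReal_pow (norm_nonneg _), hTap, e2]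
    refine ENNReal.ofReal_le_ofReal (pow_le_pow_left₀ (by positivity) ?_ 2)
    gcongr
  have hlow2 : ENNReal.ofReal ((L⁻¹ * (ε / 2)) ^ 2) * ENNReal.ofReal v ≤
      ∫⁻ x in Metric.closedBall (0 : V) 1, ‖T (π (1 * b ^ N * n x * 1⁻¹)⁻¹ Ω)‖ₑ ^ 2 ∂μ := by
    rw [← hvm, ← setLIntegral_const]
    refine (setLIntegral_mono' Metric.isClosed_closedBall.measurableSet hlow).trans ?_
    exact lintegral_mono_set (Metric.closedBall_subset_closedBall hr1)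
  have hup2 : ENNReal.ofReal (C * ρ ^ N) * TRN lam Ω T ≤ ENNReal.ofReal q' := by
    have e1 : ENNReal.ofReal (C * ρ ^ N) ≤ ENNReal.ofReal |C| * ENNReal.ofReal (ρ ^ N) := by
      rw [← ENNReal.ofReal_mul (abs_nonneg C)]
      refine ENNReal.ofReal_le_ofReal ?_
      gcongr
      exact le_abs_self C
    calc ENNReal.ofReal (C * ρ ^ N) * TRN lam Ω T
        ≤ ENNReal.ofReal |C| * ENNReal.ofReal (ρ ^ N) * c := by gcongr
      _ = ENNReal.ofReal |C| * (ENNReal.ofReal (ρ ^ N) * c) := mul_assoc _ _ _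
      _ ≤ ENNReal.ofReal |C| * ENNReal.ofReal (q' / (|C| + 1)) := by gcongr
      _ = ENNReal.ofReal (|C| * (q' / (|C| + 1))) := (ENNReal.ofReal_mul (abs_nonneg C)).symm
      _ ≤ ENNReal.ofReal q' := by
          refine ENNReal.ofReal_le_ofReal ?_
          calc |C| * (q' / (|C| + 1)) ≤ (|C| + 1) * (q' / (|C| + 1)) := by
                gcongr
                linarith
            _ = q' := by field_simp
  have hfin := hlow2.trans (hup.trans (add_le_add_left hup2 _))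
  rw [← ENNReal.ofReal_mul (by positivity), ← ENNReal.ofReal_add hq0.le hq0.le] at hfin
  have h9 := (ENNReal.ofReal_le_ofReal_iff (by positivity)).1 hfin
  rw [hq'] at h9
  have h10 : 0 < v * (L⁻¹ * (ε / 2)) ^ 2 := by positivity
  nlinarith

end est

end Vale.Agent.P092.H486.Rel
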