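import Vale.Agent.P092.H486.RelC

/-!
P092 (helper486), Team P, Track C (`k = ℂ`), part 4: relations between the cut-off maps.
-/

set_option linter.all false

open scoped InnerProductSpace Pointwise ENNReal
open Filter Topology ContinuousLinearMap TopologicalSpace MeasureTheory

namespace Vale.Agent.P092.H486.Rel

open Vale.Agent.P092.H859.CL
open Vale.Agent.P092.H553 (ind ind_nonneg ind_le_one abs_ind_le ind_pos ind_neg)
open Vale.Agent.P092.RC (Pic Moore Cm TRN)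
open Vale.Agent.P092.SD (Ms UC)
open Vale.Agent.P092.H494.PI (Dg cm_mul cm_adj cm_conj unitary_norm ms_lam ms_om ms_parseval enorm_sq)
open Vale.Agent.P092.H486.Eng (dg_mc cfr cfr_supp crd IsU IsUr ut ut_le tendsto_ut WL)
open Vale.Agent.P092.H790.CTA (ORBG SIZEG)

section tail

variable {G Γ K : Type} [Group G] [TopologicalSpace G] [Group Γ] [NormedAddCommGroup K]
  [InnerProductSpace ℂ K] [CompleteSpace K] {π : G →* (K →L[ℂ] K)} {lam : Γ →* (K →L[ℂ] K)}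
  {W : Set (K →L[ℂ] K)} {Ω : K} {m : Set Γ → (K →L[ℂ] K)} {b : G} {sz : Γ → ℝ}

/-- the tails of the size function, all vectors -/
theorem size_tail (hp : Pic π lam W Ω) (hM : Ms lam W Ω m)
    (hsz : ∀ γ, ∃ d : ℝ, 1 ≤ d ∧ ∀ y, sz (γ * y) ≤ d * sz y)
    (hS : SIZEG b π Ω m sz) {η : ℝ} (hη : 0 < η) (ξ : K) {ε : ℝ} (hε : 0 < ε) :
    ∀ᶠ N : ℕ in atTop, ‖m {γ | Real.exp (Real.exp (η * N)) < sz γ} (π (b ^ N)⁻¹ ξ)‖ ≤ ε := by
  have hP := H790.CT.PicL.of_pic hp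
  suffices hh : ∃ i : {i : ℝ // 0 < i ∧ i < η}, ∀ᶠ N : ℕ in atTop,
      ‖m {γ | Real.exp (Real.exp (i.1 * N)) < sz γ} (π (b ^ N)⁻¹ ξ)‖ ≤ ε by
    obtain ⟨⟨i, hi, hi'⟩, h1⟩ := hh
    filter_upwards [h1] with N hN
    refine (H790.CT.ms_mono hM ?_ _).trans hN
    intro γ hγ
    refine lt_of_le_of_lt ?_ (show Real.exp (Real.exp (η * N)) < sz γ from hγ)
    refine Real.exp_le_exp.2 (Real.exp_le_exp.2 ?_)
    exact mul_le_mul_of_nonneg_right hi'.le (Nat.cast_nonneg N)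
  refine H790.CT.tails (I := {i : ℝ // 0 < i ∧ i < η}) hP hM (l := atTop)
    (fun N => (b ^ N)⁻¹) (fun i N => {γ | Real.exp (Real.exp (i.1 * N)) < sz γ})
    ⟨⟨η / 2, half_pos hη, half_lt_self hη⟩⟩ ?_ ?_ ?_ ξ ε hε
  · rintro ⟨i, hi, hi'⟩ ⟨i', hj, hj'⟩
    refine ⟨⟨max i i', lt_max_of_lt_left hi, max_lt hi' hj'⟩, Eventually.of_forall fun N =>
      ⟨fun γ hγ => ?_, fun γ hγ => ?_⟩⟩
    · refine lt_of_le_of_lt ?_ (show Real.exp (Real.exp (max i i' * N)) < sz γ from hγ)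
      refine Real.exp_le_exp.2 (Real.exp_le_exp.2 ?_)
      exact mul_le_mul_of_nonneg_right (le_max_left _ _) (Nat.cast_nonneg N)
    · refine lt_of_le_of_lt ?_ (show Real.exp (Real.exp (max i i' * N)) < sz γ from hγ)
      refine Real.exp_le_exp.2 (Real.exp_le_exp.2 ?_)
      exact mul_le_mul_of_nonneg_right (le_max_right _ _) (Nat.cast_nonneg N)
  · rintro γ ⟨i, hi, hi'⟩
    obtain ⟨d, hd, h1⟩ := hsz γ
    have hd0 : 0 < d := by linarith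
    obtain ⟨j, hij, hjη⟩ := exists_between hi'
    refine ⟨⟨j, hi.trans hij, hjη⟩, ?_⟩
    have h2 : Tendsto (fun N : ℕ => Real.exp (j * N) - Real.exp (i * N)) atTop atTop := by
      have h3 : Tendsto (fun N : ℕ => (j - i) * (N : ℝ)) atTop atTop :=
        Tendsto.const_mul_atTop (by linarith) tendsto_natCast_atTop_atTop
      refine tendsto_atTop_mono (fun N => ?_) h3
      have h4 : (0 : ℝ) ≤ N := Nat.cast_nonneg N
      have h5 : Real.exp (j * N) = Real.exp (i * N) * Real.exp ((j - i) * N) := by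
        rw [← Real.exp_add]
        congr 1
        ring
      have h6 : (1 : ℝ) ≤ Real.exp (i * N) := Real.one_le_exp (by positivity)
      have h7 : (j - i) * N + 1 ≤ Real.exp ((j - i) * N) := Real.add_one_le_exp _
      have h8 : 0 ≤ (j - i) * N := mul_nonneg (by linarith) h4
      rw [h5]
      nlinarith
    filter_upwards [h2.eventually (eventually_ge_atTop (Real.log d))] with N hN y hy
    have hy' : Real.exp (Real.exp (j * N)) < sz (γ * y) := hy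
    change Real.exp (Real.exp (i * N)) < sz y
    have h9 := hy'.trans_le (h1 y)
    have h10 : Real.exp (Real.exp (j * N)) = d * Real.exp (Real.exp (j * N) - Real.log d) := by
      rw [Real.exp_sub, Real.exp_log hd0]
      field_simp
    rw [h10] at h9
    have h11 := lt_of_mul_lt_mul_left h9 hd0.le
    refine lt_of_le_of_lt (Real.exp_le_exp.2 ?_) h11
    linarith
  · intro ε hε
    refine ⟨⟨η / 2, half_pos hη, half_lt_self hη⟩, ?_⟩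
    filter_upwards [hS 1 (η / 2) (half_pos hη) ε hε] with N hN
    rw [one_mul, inv_one, mul_one] at hN
    exact hN

end tail

/-- polynomial growth against the contraction -/
theorem poly_small {ρ : ℝ} (hρ : 0 < ρ) (hρ1 : ρ < 1) (d : ℕ) :
    ∃ η > 0, ∀ (C : ℝ) (δ : ℝ), 0 < δ → ∀ᶠ N : ℕ in atTop,
      ENNReal.ofReal (ρ ^ N) * ENNReal.ofReal (C * (1 + Real.exp (η * N)) ^ d) ≤
        ENNReal.ofReal δ := by
  obtain ⟨η, hηdef⟩ : ∃ η : ℝ, η = -(Real.log ρ) / (2 * (d + 1)) := ⟨_, rfl⟩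
  have hlog : Real.log ρ < 0 := Real.log_neg hρ hρ1
  have hη : 0 < η := by
    rw [hηdef]
    refine div_pos (by linarith) (by positivity)
  refine ⟨η, hη, fun C δ hδ => ?_⟩
  obtain ⟨ρ', hρ'⟩ : ∃ ρ' : ℝ, ρ' = ρ * Real.exp (η * d) := ⟨_, rfl⟩
  have hρ'0 : 0 ≤ ρ' := by rw [hρ']; positivity
  have hρ'1 : ρ' < 1 := by
    have e1 : ρ = Real.exp (Real.log ρ) := (Real.exp_log hρ).symm
    have e2 : Real.log ρ = -(2 * (d + 1)) * η := by
      rw [hηdef]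
      have : (2 * ((d : ℝ) + 1)) ≠ 0 := by positivity
      field_simp
    rw [hρ', e1, ← Real.exp_add, Real.exp_lt_one_iff, e2]
    have h4 : (0 : ℝ) ≤ d := Nat.cast_nonneg d
    nlinarith
  have hreal : Tendsto (fun N : ℕ => |C| * 2 ^ d * ρ' ^ N) atTop (𝓝 0) := by
    have h1 := (tendsto_pow_atTop_nhds_zero_of_lt_one hρ'0 hρ'1).const_mul (|C| * 2 ^ d)
    rwa [mul_zero] at h1
  filter_upwards [hreal.eventually (eventually_lt_nhds hδ)] with N hN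
  rw [← ENNReal.ofReal_mul (by positivity)]
  refine ENNReal.ofReal_le_ofReal (le_trans ?_ hN.le)
  have h6 : (1 : ℝ) ≤ Real.exp (η * N) := Real.one_le_exp (by positivity)
  calc ρ ^ N * (C * (1 + Real.exp (η * N)) ^ d)
      ≤ ρ ^ N * (|C| * (2 * Real.exp (η * N)) ^ d) := by
        have h7 : C * (1 + Real.exp (η * N)) ^ d ≤ |C| * (2 * Real.exp (η * N)) ^ d := by
          gcongr
          · exact le_abs_self C
          · linarith
        gcongr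
    _ = |C| * 2 ^ d * ρ' ^ N := by
        have e3 : Real.exp (η * N) ^ d = Real.exp (η * d) ^ N := by
          rw [← Real.exp_nat_mul, ← Real.exp_nat_mul]
          congr 1
          ring
        rw [hρ', mul_pow, mul_pow, e3]
        ring

section cut

variable {G Γ K V : Type} [Group G] [TopologicalSpace G] [IsTopologicalGroup G] [Group Γ]
  [NormedAddCommGroup K] [InnerProductSpace ℂ K] [CompleteSpace K] {π : G →* (K →L[ℂ] K)}
  {lam : Γ →* (K →L[ℂ] K)} {W : Set (K →L[ℂ] K)} {Ω : K} {mp : (Γ → ℝ) → (K →L[ℂ] K)}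
  [NormedAddCommGroup V] [ProperSpace V] [MeasurableSpace V] [BorelSpace V] {μ : Measure V}
  [IsFiniteMeasureOnCompacts μ] [μ.IsOpenPosMeasure] {b b' : G} {n : V → G} {ρ : ℝ}
  {Y Y' : Type} [TopologicalSpace Y] [CompactSpace Y] [TopologicalSpace Y'] [CompactSpace Y']
  {G1 G2 H1 H2 : Γ → ℝ} {bp : Γ → Y} {bp' : Γ → Y'} {sz : Γ → ℝ}
  {𝒰 𝒰' : Ultrafilter ℕ}

/-- The weighted count of the products of two letters. -/
def WCnt2 {I : Type} [Fintype I] (G1 G2 : Γ → ℝ) (bp : Γ → Y) (H1 H2 : Γ → ℝ) (bp' : Γ → Y')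
    (sz : Γ → ℝ) (u : I → C(Y, ℂ)) (v : I → C(Y', ℂ)) : Prop :=
  ∀ r : ℝ, ∃ (C : ℝ) (d : ℕ), ∀ J : ℝ, 0 ≤ J → ∀ η : Γ, ∀ S : Finset Γ,
    (∀ γ ∈ S, (G2 (γ * η) ≤ r ∧ G2 (γ * η) ≤ G1 (γ * η)) ∧ Real.log (sz (γ * η)) ≤ J ∧
      (H2 γ ≤ r ∧ H2 γ ≤ H1 γ)) →
    ∑ γ ∈ S, ‖∑ i, u i (bp (γ * η)) * v i (bp' γ)‖ ^ 2 ≤ C * (1 + J) ^ d

/-- The weighted count, one type of letters. -/
def WCnt {I : Type} [Fintype I] (G1 G2 : Γ → ℝ) (bp : Γ → Y) (sz : Γ → ℝ)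
    (u v : I → C(Y, ℂ)) : Prop :=
  ∀ r : ℝ, ∃ (C : ℝ) (d : ℕ), ∀ J : ℝ, 0 ≤ J → ∀ η : Γ, ∀ S : Finset Γ,
    (∀ γ ∈ S, (G2 (γ * η) ≤ r ∧ G2 (γ * η) ≤ G1 (γ * η)) ∧ Real.log (sz (γ * η)) ≤ J ∧
      (G2 γ ≤ r ∧ G2 γ ≤ G1 γ)) →
    ∑ γ ∈ S, ‖∑ i, u i (bp (γ * η)) * v i (bp γ)‖ ^ 2 ≤ C * (1 + J) ^ d

theorem WCnt.two {I : Type} [Fintype I] {u v : I → C(Y, ℂ)} (h : WCnt G1 G2 bp sz u v) :
    WCnt2 G1 G2 bp G1 G2 bp sz u v := h

theorem cfr_eq {r : ℝ} {f : Y → ℂ} {g : Γ} (h1 : G2 g ≤ r) (h2 : G2 g ≤ G1 g) :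
    cfr G1 G2 bp r f g = f (bp g) := by
  rw [cfr, H859.CL.cfc, ind_pos (P := fun g => G2 g ≤ r) h1,
    ind_pos (P := fun g => G2 g ≤ G1 g) h2]
  simp

theorem WL_sum {α ι : Type} [Fintype ι] {l : Filter α} {f : ι → α → (K →L[ℂ] K)}
    {T : ι → (K →L[ℂ] K)} (h : ∀ i, WL l (f i) (T i)) :
    WL l (fun a => ∑ i, f i a) (∑ i, T i) := by
  intro ξ η
  simp only [ContinuousLinearMap.sum_apply, inner_sum]
  exact tendsto_finset_sum _ fun i _ => h i ξ η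

theorem isUr_cm {l : Filter G} [l.NeBot] {Er : C(Y, ℂ) →ₗ[ℂ] (K →L[ℂ] K)} {r : ℝ}
    (hE : IsUr mp (fun g => π g) G1 G2 bp r l Er) (hf : Fn mp) (hR : Rep fun g => π g)
    (hleg : Leg mp (fun g => π g) (fun γ => lam γ) W) (f : C(Y, ℂ)) : Cm W (Er f) := by
  intro a ha
  refine ((hE f).comm fun ξ η => ?_).symm
  have h1 : ∀ w, (a * PC mp (fun g => π g) w (cfr G1 G2 bp r f) -
      PC mp (fun g => π g) w (cfr G1 G2 bp r f) * a) = 0 :=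
    fun w => by rw [PC_W hleg hf hR ha (fun g => crd r f g) w, sub_self]
  simp only [h1, ContinuousLinearMap.zero_apply, inner_zero_right]
  exact tendsto_const_nhds

/-- the products, in the form of the estimate -/
theorem prod_eq {ι : Type} [Fintype ι] (x y : G) (F F' : ι → Γ → ℂ) (ζ : K) :
    (∑ i, PC mp (fun g => π g) x⁻¹ (F i) * PC mp (fun g => π g) y⁻¹ (F' i)) ζ =
      π x (XX mp π (y⁻¹ * x) F F' (π x⁻¹ ζ)) := by
  have e : (∑ i, PC mp (fun g => π g) x⁻¹ (F i) * PC mp (fun g => π g) y⁻¹ (F' i)) =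
      π x * XX mp π (y⁻¹ * x) F F' * π x⁻¹ := by
    rw [XX, Finset.mul_sum, Finset.sum_mul]
    refine Finset.sum_congr rfl fun i _ => ?_
    rw [PC, PC, PC, inv_inv, inv_inv, mul_inv_rev, inv_inv, map_mul π x⁻¹ y, map_mul π y⁻¹ x]
    have e1 : π x * π x⁻¹ = 1 := by rw [← map_mul, mul_inv_cancel, map_one]
    calc π x * mc mp (F i) * π x⁻¹ * (π y * mc mp (F' i) * π y⁻¹)
        = π x * mc mp (F i) * π x⁻¹ * (π y * mc mp (F' i) * π y⁻¹) * (π x * π x⁻¹) := by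
          rw [e1, mul_one]
      _ = _ := by simp only [mul_assoc]
  rw [e]
  rfl

/-- the part of the first letter on a set `D` is small -/
theorem rest_le (hp : Pic π lam W Ω) (hf : Fn mp) (hR : Rep fun g => π g) {M : ℝ} (hM0 : 0 ≤ M)
    {F : Γ → ℂ} (hF : ∀ g, ‖F g‖ ≤ M) {D : Set Γ} (hD : ∀ g, F g ≠ 0 → g ∈ D) (w : G) (ξ x : K) :
    ‖⟪ξ, PC mp (fun g => π g) w F x⟫_ℂ‖ ≤ M * ‖st mp D (π w ξ)‖ * ‖x‖ := by
  have hpi : ∀ g ξ, ‖π g ξ‖ = ‖ξ‖ := fun g ξ => unitary_norm hp.adjP g ξ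
  have e1 : ⟪ξ, PC mp (fun g => π g) w F x⟫_ℂ =
      ⟪adjoint (PC mp (fun g => π g) w F) ξ, x⟫_ℂ := by
    rw [adjoint_inner_left]
  have hc : ∀ g, ‖(starRingEnd ℂ) (F g)‖ ≤ M := fun g => by rw [RCLike.norm_conj]; exact hF g
  rw [e1, PC_adj hf hR hF]
  refine (norm_inner_le_norm _ _).trans ?_
  refine mul_le_mul_of_nonneg_right ?_ (norm_nonneg _)
  change ‖π w⁻¹ (mc mp (fun g => (starRingEnd ℂ) (F g)) (π w ξ))‖ ≤ _
  rw [hpi, H859.CN.mc_cut hf hc (S := D) fun g hg => hD g fun h0 => hg (by rw [h0, map_zero])]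
  exact mc_norm hf hM0 hc _

/-- **Relations between the cut-off maps.** -/
theorem rel_cut (hp : Pic π lam W Ω) (hM : Ms lam W Ω (st mp))
    (hleg : Leg mp (fun g => π g) (fun γ => lam γ) W)
    (hf : Fn mp) (hR : Rep fun g => π g) (hUC : UC π W Ω (st mp)) (hρ : 0 < ρ) (hρ1 : ρ < 1)
    (hnc : Tendsto n (𝓝 0) (𝓝 1)) (hORB : ORBG μ b n ρ π lam W Ω)
    (hctr : ∀ N : ℕ, ∀ O ∈ 𝓝 (1 : G), ∀ᶠ s : ℕ in atTop, ∀ x ∈ Metric.closedBall (0 : V) 1,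
      (b' ^ s)⁻¹ * (b ^ N * n x * (b ^ N)⁻¹) * b' ^ s ∈ O)
    (hsz0 : ∀ γ, 0 < sz γ) (hsz : ∀ γ, ∃ d : ℝ, 1 ≤ d ∧ ∀ y, sz (γ * y) ≤ d * sz y)
    (hS : SIZEG b π Ω (st mp) sz) (h𝒰 : (𝒰 : Filter ℕ) ≤ atTop) (h𝒰' : (𝒰' : Filter ℕ) ≤ atTop)
    {r : ℝ} {Er : C(Y, ℂ) →ₗ[ℂ] (K →L[ℂ] K)} {Fr : C(Y', ℂ) →ₗ[ℂ] (K →L[ℂ] K)}
    (hE : IsUr mp (fun g => π g) G1 G2 bp r (ut b 𝒰 : Filter G) Er)
    (hF : IsUr mp (fun g => π g) H1 H2 bp' r (ut b' 𝒰' : Filter G) Fr)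
    {ι : Type} [Fintype ι] (u : ι → C(Y, ℂ)) (v : ι → C(Y', ℂ)) {C : ℝ} {d : ℕ}
    (hC : ∀ J : ℝ, 0 ≤ J → ∀ η : Γ, ∀ S : Finset Γ,
      (∀ γ ∈ S, (G2 (γ * η) ≤ r ∧ G2 (γ * η) ≤ G1 (γ * η)) ∧ Real.log (sz (γ * η)) ≤ J ∧
        (H2 γ ≤ r ∧ H2 γ ≤ H1 γ)) →
      ∑ γ ∈ S, ‖∑ i, u i (bp (γ * η)) * v i (bp' γ)‖ ^ 2 ≤ C * (1 + J) ^ d) :
    ∑ i, Er (u i) * Fr (v i) = 0 := by
  classical
  have hpi : ∀ g ξ, ‖π g ξ‖ = ‖ξ‖ := fun g ξ => unitary_norm hp.adjP g ξ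
  have hli : ∀ γ x, ‖lam γ x‖ = ‖x‖ := fun γ x => unitary_norm hp.adjL γ x
  obtain ⟨T, hT⟩ : ∃ T, T = ∑ i, Er (u i) * Fr (v i) := ⟨_, rfl⟩
  rw [← hT]
  have hTcm : Cm W T := by
    rw [hT]
    exact cm_sum fun i _ => cm_mul (isUr_cm hE hf hR hleg (u i)) (isUr_cm hF hf hR hleg (v i))
  -- a common bound
  obtain ⟨M, hM1, hMu, hMv⟩ : ∃ M : ℝ, 1 ≤ M ∧ (∀ i, ‖u i‖ ≤ M) ∧ ∀ i, ‖v i‖ ≤ M := by
    refine ⟨1 + ∑ i, ‖u i‖ + ∑ i, ‖v i‖, ?_, fun i => ?_, fun i => ?_⟩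
    · have h1 : 0 ≤ ∑ i, ‖u i‖ := Finset.sum_nonneg fun i _ => norm_nonneg _
      have h2 : 0 ≤ ∑ i, ‖v i‖ := Finset.sum_nonneg fun i _ => norm_nonneg _
      linarith
    · have h1 : ‖u i‖ ≤ ∑ i, ‖u i‖ :=
        Finset.single_le_sum (f := fun i => ‖u i‖) (fun i _ => norm_nonneg _) (Finset.mem_univ i)
      have h2 : 0 ≤ ∑ i, ‖v i‖ := Finset.sum_nonneg fun i _ => norm_nonneg _
      linarith
    · have h1 : ‖v i‖ ≤ ∑ i, ‖v i‖ :=
        Finset.single_le_sum (f := fun i => ‖v i‖) (fun i _ => norm_nonneg _) (Finset.mem_univ i)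
      have h2 : 0 ≤ ∑ i, ‖u i‖ := Finset.sum_nonneg fun i _ => norm_nonneg _
      linarith
  have hM0 : (0 : ℝ) ≤ M := by linarith
  have bu : ∀ i g, ‖cfr G1 G2 bp r (u i) g‖ ≤ M := fun i g => (crd r (u i) g).trans (hMu i)
  have bv : ∀ i g, ‖cfr H1 H2 bp' r (v i) g‖ ≤ M := fun i g => (crd r (v i) g).trans (hMv i)
  obtain ⟨η, hη, hpol⟩ := poly_small hρ hρ1 d
  -- the cut of the first letter
  obtain ⟨D, hD⟩ : ∃ D : ℕ → Set Γ, D = fun N : ℕ => {γ | Real.exp (Real.exp (η * N)) < sz γ} :=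
    ⟨_, rfl⟩
  obtain ⟨Fc, hFc⟩ : ∃ Fc : ℕ → ι → Γ → ℂ, Fc = fun N i g =>
    if g ∈ D N then 0 else cfr G1 G2 bp r (u i) g := ⟨_, rfl⟩
  obtain ⟨Fd, hFd⟩ : ∃ Fd : ℕ → ι → Γ → ℂ, Fd = fun N i g =>
    if g ∈ D N then cfr G1 G2 bp r (u i) g else 0 := ⟨_, rfl⟩
  have bc : ∀ N i g, ‖Fc N i g‖ ≤ M := fun N i g => by
    rw [hFc]
    dsimp only
    split_ifs
    · rw [norm_zero]; exact hM0
    · exact bu i g
  have bd : ∀ N i g, ‖Fd N i g‖ ≤ M := fun N i g => by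
    rw [hFd]
    dsimp only
    split_ifs
    · exact bu i g
    · rw [norm_zero]; exact hM0
  have hsum : ∀ N i, cfr G1 G2 bp r (u i) = fun g => Fc N i g + Fd N i g := by
    intro N i
    funext g
    rw [hFc, hFd]
    dsimp only
    split_ifs
    · rw [zero_add]
    · rw [add_zero]
  -- the count
  have hcnt : ∀ N : ℕ, ∀ ξ : Γ, ∑' γ, ‖∑ i, cfr H1 H2 bp' r (v i) γ * Fc N i (γ * ξ)‖ₑ ^ 2 ≤
      ENNReal.ofReal (C * (1 + Real.exp (η * N)) ^ d) := by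
    intro N ξ
    rw [ENNReal.tsum_eq_iSup_sum]
    refine iSup_le fun S => ?_
    obtain ⟨S', hS'⟩ : ∃ S' : Finset Γ, S' = S.filter fun γ =>
      ∑ i, cfr H1 H2 bp' r (v i) γ * Fc N i (γ * ξ) ≠ 0 := ⟨_, rfl⟩
    have e0 : ∑ γ ∈ S, ‖∑ i, cfr H1 H2 bp' r (v i) γ * Fc N i (γ * ξ)‖ₑ ^ 2 =
        ∑ γ ∈ S', ‖∑ i, cfr H1 H2 bp' r (v i) γ * Fc N i (γ * ξ)‖ₑ ^ 2 := by
      rw [hS', Finset.sum_filter]
      refine Finset.sum_congr rfl fun γ _ => ?_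
      split_ifs with h0
      · rfl
      · rw [not_not] at h0
        rw [h0]
        simp
    have hcond : ∀ γ ∈ S', (G2 (γ * ξ) ≤ r ∧ G2 (γ * ξ) ≤ G1 (γ * ξ)) ∧
        Real.log (sz (γ * ξ)) ≤ Real.exp (η * N) ∧ (H2 γ ≤ r ∧ H2 γ ≤ H1 γ) := by
      intro γ hγ
      rw [hS', Finset.mem_filter] at hγ
      obtain ⟨i, _, hi⟩ := Finset.exists_ne_zero_of_sum_ne_zero hγ.2
      have h1 := cfr_supp (left_ne_zero_of_mul hi)
      have h2 := right_ne_zero_of_mul hi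
      rw [hFc] at h2
      dsimp only at h2
      split_ifs at h2 with h3
      · exact absurd rfl h2
      · have h4 := cfr_supp h2
        rw [hD] at h3
        have h5 : sz (γ * ξ) ≤ Real.exp (Real.exp (η * N)) := not_lt.1 h3
        have h6 := Real.log_le_log (hsz0 _) h5
        rw [Real.log_exp] at h6
        exact ⟨⟨h4.1, h4.2.1⟩, h6, h1.1, h1.2.1⟩
    have e1 : ∑ γ ∈ S', ‖∑ i, cfr H1 H2 bp' r (v i) γ * Fc N i (γ * ξ)‖ₑ ^ 2 =
        ENNReal.ofReal (∑ γ ∈ S', ‖∑ i, u i (bp (γ * ξ)) * v i (bp' γ)‖ ^ 2) := by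
      rw [ENNReal.ofReal_sum_of_nonneg fun i _ => sq_nonneg _]
      refine Finset.sum_congr rfl fun γ hγ => ?_
      obtain ⟨⟨a1, a2⟩, a3, a4, a5⟩ := hcond γ hγ
      have a6 : γ * ξ ∉ D N := by
        rw [hD]
        intro h7
        have h8 : Real.exp (Real.exp (η * N)) < sz (γ * ξ) := h7
        have h9 := Real.log_lt_log (Real.exp_pos _) h8
        rw [Real.log_exp] at h9
        linarith
      rw [← ofReal_norm_eq_enorm, ENNReal.ofReal_pow (norm_nonneg _)]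
      congr 3
      refine Finset.sum_congr rfl fun i _ => ?_
      rw [cfr_eq a4 a5, hFc]
      dsimp only
      rw [if_neg a6, cfr_eq a1 a2, mul_comm]
    rw [e0, e1]
    exact ENNReal.ofReal_le_ofReal (hC _ (Real.exp_pos _).le ξ S' hcond)
  -- vanishing at the vectors `lam γ Ω`
  have hzero : ∀ γ, T (lam γ Ω) = 0 := by
    intro γ
    refine ext_inner_left ℂ fun ξ => ?_
    rw [inner_zero_right]
    rw [← norm_eq_zero]
    refine le_antisymm (le_of_forall_pos_le_add fun κ hκ => ?_) (norm_nonneg _)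
    rw [zero_add]
    obtain ⟨Q, hQ⟩ : ∃ Q : ℝ, Q = Fintype.card ι * M ^ 2 + ‖ξ‖ + 1 := ⟨_, rfl⟩
    have hQ0 : 0 < Q := by rw [hQ]; positivity
    obtain ⟨ε, hε⟩ : ∃ ε : ℝ, ε = κ / Q := ⟨_, rfl⟩
    have hε0 : 0 < ε := by rw [hε]; positivity
    obtain ⟨δ, hδ, hest⟩ := est (b' := b') hp hM hleg hf hR hUC hρ.le hnc hORB hctr ι hM1 hε0
    have hlim : Tendsto (fun N : ℕ => ⟪ξ, (∑ i, PC mp (fun g => π g) (b ^ N)⁻¹
        (cfr G1 G2 bp r (u i)) * Fr (v i)) (lam γ Ω)⟫_ℂ) (𝒰 : Filter ℕ)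
        (𝓝 ⟪ξ, T (lam γ Ω)⟫_ℂ) := by
      have h1 : WL (ut b 𝒰 : Filter G) (fun w => ∑ i, PC mp (fun g => π g) w
        (cfr G1 G2 bp r (u i)) * Fr (v i)) T := by
        rw [hT]
        exact WL_sum fun i => (hE (u i)).mul_right (Fr (v i))
      exact tendsto_ut.1 (h1 (lam γ Ω) ξ)
    refine le_of_tendsto hlim.norm ?_
    have h2 := (hpol C δ hδ).filter_mono h𝒰
    have h3 := (size_tail (b := b) hp hM hsz hS hη ξ hε0).filter_mono h𝒰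
    filter_upwards [h2, h3] with N h2 h3
    have hlim' : Tendsto (fun s : ℕ => ⟪ξ, (∑ i, PC mp (fun g => π g) (b ^ N)⁻¹
        (cfr G1 G2 bp r (u i)) * PC mp (fun g => π g) (b' ^ s)⁻¹
        (cfr H1 H2 bp' r (v i))) (lam γ Ω)⟫_ℂ) (𝒰' : Filter ℕ)
        (𝓝 ⟪ξ, (∑ i, PC mp (fun g => π g) (b ^ N)⁻¹
        (cfr G1 G2 bp r (u i)) * Fr (v i)) (lam γ Ω)⟫_ℂ) := by
      have h1 : WL (ut b' 𝒰' : Filter G) (fun w => ∑ i, PC mp (fun g => π g) (b ^ N)⁻¹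
        (cfr G1 G2 bp r (u i)) * PC mp (fun g => π g) w (cfr H1 H2 bp' r (v i)))
        (∑ i, PC mp (fun g => π g) (b ^ N)⁻¹ (cfr G1 G2 bp r (u i)) * Fr (v i)) :=
        WL_sum fun i => (hF (v i)).mul_left _
      exact tendsto_ut.1 (h1 (lam γ Ω) ξ)
    refine le_of_tendsto hlim'.norm ?_
    filter_upwards [(hest N).filter_mono h𝒰'] with s hs
    have h4 := hs γ (Fc N) (fun i => cfr H1 H2 bp' r (v i)) (bc N) bv _ (hcnt N) h2
    -- splitting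
    have e1 : (∑ i, PC mp (fun g => π g) (b ^ N)⁻¹ (cfr G1 G2 bp r (u i)) *
        PC mp (fun g => π g) (b' ^ s)⁻¹ (cfr H1 H2 bp' r (v i))) (lam γ Ω) =
        (∑ i, PC mp (fun g => π g) (b ^ N)⁻¹ (Fc N i) *
        PC mp (fun g => π g) (b' ^ s)⁻¹ (cfr H1 H2 bp' r (v i))) (lam γ Ω) +
        ∑ i, PC mp (fun g => π g) (b ^ N)⁻¹ (Fd N i)
          (PC mp (fun g => π g) (b' ^ s)⁻¹ (cfr H1 H2 bp' r (v i)) (lam γ Ω)) := by
      rw [ContinuousLinearMap.sum_apply, ContinuousLinearMap.sum_apply, ← Finset.sum_add_distrib]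
      refine Finset.sum_congr rfl fun i _ => ?_
      rw [hsum N i, PC_add hf (bc N i) (bd N i)]
      rfl
    rw [e1, inner_add_right]
    refine (norm_add_le _ _).trans ?_
    have c1 : ‖⟪ξ, (∑ i, PC mp (fun g => π g) (b ^ N)⁻¹ (Fc N i) *
        PC mp (fun g => π g) (b' ^ s)⁻¹ (cfr H1 H2 bp' r (v i))) (lam γ Ω)⟫_ℂ‖ ≤ ‖ξ‖ * ε := by
      refine (norm_inner_le_norm _ _).trans (mul_le_mul_of_nonneg_left ?_ (norm_nonneg _))
      rw [prod_eq, hpi]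
      have e2 : π (b ^ N)⁻¹ (lam γ Ω) = lam γ (π (b ^ N)⁻¹ Ω) :=
        congrArg (fun A : K →L[ℂ] K => A Ω) (hp.comm (b ^ N)⁻¹ γ)
      rw [e2]
      exact h4
    have c2 : ‖⟪ξ, ∑ i, PC mp (fun g => π g) (b ^ N)⁻¹ (Fd N i)
          (PC mp (fun g => π g) (b' ^ s)⁻¹ (cfr H1 H2 bp' r (v i)) (lam γ Ω))⟫_ℂ‖ ≤
        Fintype.card ι * M ^ 2 * ε := by
      rw [inner_sum]
      refine (norm_sum_le _ _).trans ?_
      refine (Finset.sum_le_sum fun i _ => ?_ : _ ≤ ∑ i : ι, M ^ 2 * ε).trans (le_of_eq ?_)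
      · refine (rest_le hp hf hR hM0 (bd N i) (D := D N) ?_ _ ξ _).trans ?_
        · intro g hg
          by_contra h0
          apply hg
          rw [hFd]
          dsimp only
          rw [if_neg h0]
        · have k1 : ‖PC mp (fun g => π g) (b' ^ s)⁻¹ (cfr H1 H2 bp' r (v i)) (lam γ Ω)‖ ≤ M := by
            refine (ContinuousLinearMap.le_opNorm _ _).trans ?_
            rw [hli, hp.nΩ, mul_one]
            exact PC_opNorm hf hR hM0 (bv i) _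
          have k2 : ‖st mp (D N) (π (b ^ N)⁻¹ ξ)‖ ≤ ε := by
            rw [hD]
            exact h3
          calc _ ≤ M * ε * M := by gcongr
            _ = M ^ 2 * ε := by ring
      · rw [Finset.sum_const, nsmul_eq_mul, Finset.card_univ]
        ring
    calc _ ≤ ‖ξ‖ * ε + Fintype.card ι * M ^ 2 * ε := add_le_add c1 c2
      _ ≤ Q * ε := by
          rw [hQ]
          nlinarith
      _ = κ := by
          rw [hε]
          field_simp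
  refine hp.tr_zero T hTcm ?_
  rw [TRN, ENNReal.tsum_eq_zero]
  intro γ
  rw [hzero γ]
  simp

end cut

end Vale.Agent.P092.H486.Rel
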